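import Vale.Agent.P184.Defs

/-!
P184: the cyclic pairing attached to an additive cocycle on one conjugacy class, on the group
ring, and its values at almost idempotent matrices.
-/

namespace Vale.Agent.P184

open MonoidAlgebra Matrix
open scoped MonoidAlgebra

variable {G : Type*} [Group G]

/-- A real cocycle for the conjugation action on the class of `g0`, equal to `c` on the
stabilising moves and of polynomial growth. -/
structure Cocycle (g0 : G) (L : G → ℝ) where
  α : G → G → ℝ
  c : ℝ
  K : ℝ
  m : ℕ
  c_ne : c ≠ 0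
  K_nonneg : 0 ≤ K
  mul : ∀ k l y, IsConj g0 y → α (k * l) y = α k (l * y * l⁻¹) + α l y
  self : ∀ y, IsConj g0 y → α y y = c
  bound : ∀ k y, IsConj g0 y → |α k y| ≤ K * (1 + L k + L y) ^ m

variable {g0 : G} {L : G → ℝ}

open Classical in
/-- The indicator of the class, extended linearly. -/
noncomputable def tau (g0 : G) (x : ℂ[G]) : ℂ :=
  x.coeff.sum fun h u => if IsConj g0 h then u else 0

open Classical in
/-- The kernel of the pairing. -/
noncomputable def Cocycle.psi (A : Cocycle g0 L) (h k : G) : ℂ :=
  if IsConj g0 (h * k) then (A.α k (h * k) : ℂ) else 0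

/-- The pairing. -/
noncomputable def Cocycle.pair (A : Cocycle g0 L) (x y : ℂ[G]) : ℂ :=
  x.coeff.sum fun h u => y.coeff.sum fun k v => u * v * A.psi h k

lemma tau_add (g0 : G) (x y : ℂ[G]) : tau g0 (x + y) = tau g0 x + tau g0 y := by
  classical
  rw [tau, coeff_add, Finsupp.sum_add_index' (by simp) (by intros; split_ifs <;> simp)]
  rfl

lemma Cocycle.pair_add_left (A : Cocycle g0 L) (x x' y : ℂ[G]) :
    A.pair (x + x') y = A.pair x y + A.pair x' y := by
  rw [pair, coeff_add, Finsupp.sum_add_index' (by simp)]
  · rfl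
  · intro h u u'
    simp [add_mul, Finsupp.sum_add]

lemma Cocycle.pair_add_right (A : Cocycle g0 L) (x y y' : ℂ[G]) :
    A.pair x (y + y') = A.pair x y + A.pair x y' := by
  rw [pair, pair, pair, ← Finsupp.sum_add]
  refine Finsupp.sum_congr fun h _ => ?_
  rw [coeff_add, Finsupp.sum_add_index' (by simp)]
  intros; ring

lemma tau_single (g0 : G) (h : G) (u : ℂ) [Decidable (IsConj g0 h)] :
    tau g0 (single h u) = if IsConj g0 h then u else 0 := by
  classical
  rw [tau, coeff_single, Finsupp.sum_single_index (by simp)]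
  congr

lemma Cocycle.pair_single (A : Cocycle g0 L) (h k : G) (u v : ℂ) :
    A.pair (single h u) (single k v) = u * v * A.psi h k := by
  rw [pair, coeff_single, coeff_single, Finsupp.sum_single_index (by simp),
    Finsupp.sum_single_index (by simp)]

lemma Cocycle.pair_zero_left (A : Cocycle g0 L) (y : ℂ[G]) : A.pair 0 y = 0 := by simp [pair]

lemma Cocycle.pair_zero_right (A : Cocycle g0 L) (x : ℂ[G]) : A.pair x 0 = 0 := by simp [pair]

lemma conj_rot {a b : G} : IsConj g0 (a * b) ↔ IsConj g0 (b * a) := by
  have h : IsConj (a * b) (b * a) := isConj_iff.2 ⟨a⁻¹, by group⟩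
  exact ⟨fun e => e.trans h, fun e => e.trans h.symm⟩

lemma Cocycle.psi_cycle (A : Cocycle g0 L) (a b d : G) :
    A.psi (a * b) d - A.psi a (b * d) + A.psi (d * a) b = 0 := by
  classical
  have e : IsConj g0 (d * a * b) ↔ IsConj g0 (a * b * d) := by
    rw [mul_assoc d a b]; exact conj_rot
  simp only [psi, ← mul_assoc, e]
  split_ifs with h
  · have hm := A.mul b d (a * b * d) h
    rw [show d * (a * b * d) * d⁻¹ = d * a * b by group] at hm
    rw [hm]; push_cast; ring
  · simp

/-- The cyclic identity on the group ring. -/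
lemma Cocycle.pair_cycle (A : Cocycle g0 L) (x y z : ℂ[G]) :
    A.pair (x * y) z - A.pair x (y * z) + A.pair (z * x) y = 0 := by
  induction x using MonoidAlgebra.induction_linear with
  | zero => simp [A.pair_zero_left, A.pair_zero_right]
  | add x x' hx hx' =>
      simp only [add_mul, mul_add, A.pair_add_left]
      linear_combination hx + hx'
  | single a u =>
    induction y using MonoidAlgebra.induction_linear with
    | zero => simp [A.pair_zero_left, A.pair_zero_right]
    | add y y' hy hy' =>
        simp only [add_mul, mul_add, A.pair_add_left, A.pair_add_right]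
        linear_combination hy + hy'
    | single b v =>
      induction z using MonoidAlgebra.induction_linear with
      | zero => simp [A.pair_zero_left, A.pair_zero_right]
      | add z z' hz hz' =>
          simp only [add_mul, mul_add, A.pair_add_left, A.pair_add_right]
          linear_combination hz + hz'
      | single d w =>
          simp only [single_mul_single, A.pair_single]
          linear_combination u * v * w * A.psi_cycle a b d

lemma Cocycle.pair_one (A : Cocycle g0 L) (x : ℂ[G]) : A.pair 1 x = (A.c : ℂ) * tau g0 x := by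
  classical
  induction x using MonoidAlgebra.induction_linear with
  | zero => simp [A.pair_zero_right, tau]
  | add x x' hx hx' => rw [A.pair_add_right, tau_add, hx, hx']; ring
  | single h u =>
      rw [one_def, A.pair_single, tau_single, psi, one_mul, one_mul]
      split_ifs with hc
      · rw [A.self h hc]; ring
      · simp

variable {ι : Type*} [Fintype ι] [DecidableEq ι]

/-- The trace coefficient of a matrix over the group ring. -/
noncomputable def tauM (g0 : G) (a : Matrix ι ι ℂ[G]) : ℂ := ∑ i, tau g0 (a i i)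

/-- The pairing of matrices. -/
noncomputable def Cocycle.pairM (A : Cocycle g0 L) (a b : Matrix ι ι ℂ[G]) : ℂ :=
  ∑ i, ∑ j, A.pair (a i j) (b j i)

lemma Cocycle.pair_sum_left (A : Cocycle g0 L) {κ : Type*} (s : Finset κ) (f : κ → ℂ[G])
    (y : ℂ[G]) : A.pair (∑ k ∈ s, f k) y = ∑ k ∈ s, A.pair (f k) y :=
  map_sum (AddMonoidHom.mk' (fun x => A.pair x y) (fun a b => A.pair_add_left a b y)) f s

lemma Cocycle.pair_sum_right (A : Cocycle g0 L) {κ : Type*} (s : Finset κ) (f : κ → ℂ[G])
    (x : ℂ[G]) : A.pair x (∑ k ∈ s, f k) = ∑ k ∈ s, A.pair x (f k) :=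
  map_sum (AddMonoidHom.mk' (fun y => A.pair x y) (fun a b => A.pair_add_right x a b)) f s

lemma Cocycle.pairM_cycle (A : Cocycle g0 L) (a b d : Matrix ι ι ℂ[G]) :
    A.pairM (a * b) d - A.pairM a (b * d) + A.pairM (d * a) b = 0 := by
  have e1 : A.pairM (a * b) d = ∑ i, ∑ k, ∑ j, A.pair (a i k * b k j) (d j i) := by
    refine Finset.sum_congr rfl fun i _ => ?_
    simp only [Matrix.mul_apply, A.pair_sum_left]
    exact Finset.sum_comm
  have e2 : A.pairM a (b * d) = ∑ i, ∑ k, ∑ j, A.pair (a i k) (b k j * d j i) := by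
    simp only [pairM, Matrix.mul_apply, A.pair_sum_right]
  have e3 : A.pairM (d * a) b = ∑ i, ∑ k, ∑ j, A.pair (d j i * a i k) (b k j) := by
    simp only [pairM, Matrix.mul_apply, A.pair_sum_left]
    rw [Finset.sum_comm]
    rw [Finset.sum_congr rfl fun k _ => Finset.sum_comm, Finset.sum_comm]
  rw [e1, e2, e3, ← Finset.sum_sub_distrib, ← Finset.sum_add_distrib]
  refine Finset.sum_eq_zero fun i _ => ?_
  rw [← Finset.sum_sub_distrib, ← Finset.sum_add_distrib]
  refine Finset.sum_eq_zero fun k _ => ?_
  rw [← Finset.sum_sub_distrib, ← Finset.sum_add_distrib]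
  exact Finset.sum_eq_zero fun j _ => A.pair_cycle _ _ _

lemma Cocycle.pairM_add_left (A : Cocycle g0 L) (a a' b : Matrix ι ι ℂ[G]) :
    A.pairM (a + a') b = A.pairM a b + A.pairM a' b := by
  simp [pairM, A.pair_add_left, Finset.sum_add_distrib]

lemma Cocycle.pairM_add_right (A : Cocycle g0 L) (a b b' : Matrix ι ι ℂ[G]) :
    A.pairM a (b + b') = A.pairM a b + A.pairM a b' := by
  simp [pairM, A.pair_add_right, Finset.sum_add_distrib]

lemma Cocycle.pairM_one (A : Cocycle g0 L) (a : Matrix ι ι ℂ[G]) :
    A.pairM 1 a = (A.c : ℂ) * tauM g0 a := by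
  rw [pairM, tauM, Finset.mul_sum]
  refine Finset.sum_congr rfl fun i _ => ?_
  rw [Finset.sum_eq_single i]
  · rw [Matrix.one_apply_eq, A.pair_one]
  · intro j _ hj; rw [Matrix.one_apply_ne (Ne.symm hj), A.pair_zero_left]
  · simp

/-- The trace of an almost idempotent matrix is controlled by the defect. -/
lemma Cocycle.tau_almost (A : Cocycle g0 L) (a : Matrix ι ι ℂ[G]) :
    (A.c : ℂ) * tauM g0 a =
      - A.pairM 1 (a * a - a) + 2 * (A.pairM a (a * a - a) - 2 * A.pairM (a * a - a) a) := by
  set ε := a * a - a with hε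
  have e : a * a = a + ε := by rw [hε]; abel
  have h1 := A.pairM_cycle 1 a a
  have h2 := A.pairM_cycle a a a
  rw [one_mul, mul_one, e, A.pairM_add_right] at h1
  rw [e, A.pairM_add_right, A.pairM_add_left] at h2
  rw [← A.pairM_one]
  linear_combination -h1 + 2 * h2

end Vale.Agent.P184
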