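import Vale.Agent.P184.Newton

/-!
P184: finite truncations of an idempotent matrix, and the vanishing of its trace coefficient.
-/

namespace Vale.Agent.P184

open MonoidAlgebra Matrix Filter Topology
open scoped MonoidAlgebra

variable {G : Type*} [Group G]

open Classical in
/-- The restriction of a function to a finite set, as an element of the group ring. -/
noncomputable def cut (S : Finset G) (x : G → ℂ) : ℂ[G] :=
  ofCoeff (Finsupp.onFinset S (fun h => if h ∈ S then x h else 0)
    (fun h hh => by by_contra hs; exact hh (if_neg hs)))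

open Classical in
lemma coeff_cut (S : Finset G) (x : G → ℂ) (h : G) :
    (cut S x).coeff h = if h ∈ S then x h else 0 := by
  simp [cut]

lemma norm_coeff_cut (S : Finset G) (x : G → ℂ) (h : G) : ‖(cut S x).coeff h‖ ≤ ‖x h‖ := by
  classical
  rw [coeff_cut]; split_ifs <;> simp

lemma tsum_coeff {M : Type*} [AddCommMonoid M] [TopologicalSpace M] (x : ℂ[G]) (f : G → ℂ → M)
    (hf : ∀ h, f h 0 = 0) : ∑' h, f h (x.coeff h) = x.coeff.sum f :=
  tsum_eq_sum fun h hh => by rw [Finsupp.notMem_support_iff.1 hh, hf]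

lemma l1_eq_tsum (x : ℂ[G]) : l1 x = ∑' h, ‖x.coeff h‖ :=
  (tsum_coeff x (fun _ v => ‖v‖) (by simp)).symm

lemma coeff_mul_tsum (x y : ℂ[G]) (g : G) :
    (x * y).coeff g = ∑' h, x.coeff h * y.coeff (h⁻¹ * g) := by
  classical
  rw [tsum_coeff x (fun h v => v * y.coeff (h⁻¹ * g)) (by simp), coeff_mul]
  refine Finsupp.sum_congr fun h _ => ?_
  simp only [← eq_inv_mul_iff_mul_eq]
  simp only [Finsupp.sum_ite_eq', Finsupp.mem_support_iff]
  split_ifs with h' <;> simp_all

variable {ι : Type*} [Fintype ι] {e : ι → ι → G → ℂ}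

/-- The truncated matrix. -/
noncomputable def cutM (S : Finset G) (e : ι → ι → G → ℂ) : Matrix ι ι ℂ[G] :=
  Matrix.of fun i j => cut S (e i j)

lemma nm_cutM_le (he : IsIdem e) (S : Finset G) :
    nm (cutM S e) ≤ ∑ i, ∑ j, ∑' h, ‖e i j h‖ := by
  refine Finset.sum_le_sum fun i _ => Finset.sum_le_sum fun j _ => ?_
  rw [l1_eq_tsum]
  have hb : ∀ h, ‖(cutM S e i j).coeff h‖ ≤ ‖e i j h‖ := norm_coeff_cut S (e i j)
  exact Summable.tsum_le_tsum hb ((he.1 i j).of_nonneg_of_le (fun h => norm_nonneg _) hb) (he.1 i j)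

lemma tendsto_cut (x : G → ℂ) (h : G) :
    Tendsto (fun S : Finset G => (cut S x).coeff h) atTop (𝓝 (x h)) := by
  classical
  refine tendsto_const_nhds.congr' ?_
  filter_upwards [eventually_ge_atTop ({h} : Finset G)] with S hS
  rw [coeff_cut, if_pos (hS (Finset.mem_singleton_self h))]

lemma tendsto_tau_cutM (he : IsIdem e) (g0 : G) :
    Tendsto (fun S => tauM g0 (cutM S e)) atTop (𝓝 (hsTrace e g0)) := by
  classical
  refine tendsto_finsetSum _ fun i _ => ?_
  have e1 : ∀ S, tau g0 (cutM S e i i) =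
      ∑' h, if IsConj g0 h then (cut S (e i i)).coeff h else 0 := fun S =>
    (tsum_coeff (cutM S e i i) (fun h v => if IsConj g0 h then v else 0) (by simp)).symm
  have e2 : ∑' x : {x : G // IsConj g0 x}, e i i x = ∑' h, if IsConj g0 h then e i i h else 0 :=
    (tsum_subtype {x | IsConj g0 x} (e i i)).trans (tsum_congr fun h => by
      simp [Set.indicator_apply])
  simp only [e1, e2]
  refine tendsto_tsum_of_dominated_convergence (he.1 i i) (fun h => ?_)
    (Eventually.of_forall fun S h => ?_)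
  · split_ifs
    · exact tendsto_cut _ _
    · exact tendsto_const_nhds
  · split_ifs
    · exact norm_coeff_cut _ _ _
    · simp

lemma summable_shear {u v : G → ℝ} (hu : Summable u) (hv : Summable v) (hu0 : ∀ h, 0 ≤ u h)
    (hv0 : ∀ h, 0 ≤ v h) :
    (∀ g, Summable fun h => u h * v (h⁻¹ * g)) ∧
      Summable fun g => ∑' h, u h * v (h⁻¹ * g) := by
  let φ : G × G ≃ G × G :=
    { toFun := fun p => (p.2, p.2⁻¹ * p.1)
      invFun := fun p => (p.1 * p.2, p.1)
      left_inv := fun p => by simp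
      right_inv := fun p => by simp }
  have hp : Summable fun p : G × G => u p.2 * v (p.2⁻¹ * p.1) :=
    φ.summable_iff.2 (hu.mul_of_nonneg hv hu0 hv0)
  exact (summable_prod_of_nonneg fun p => mul_nonneg (hu0 _) (hv0 _)).1 hp

lemma coeff_defect (S : Finset G) (e : ι → ι → G → ℂ) (i j : ι) (g : G) :
    ((cutM S e * cutM S e - cutM S e) i j).coeff g =
      ∑ k, ∑' h, (cut S (e i k)).coeff h * (cut S (e k j)).coeff (h⁻¹ * g) -
        (cut S (e i j)).coeff g := by
  rw [Matrix.sub_apply, coeff_sub, Finsupp.sub_apply, Matrix.mul_apply, coeff_sum,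
    Finsupp.finset_sum_apply]
  simp only [coeff_mul_tsum, cutM, Matrix.of_apply]

lemma norm_coeff_defect_le (he : IsIdem e) (S : Finset G) (i j : ι) (g : G) :
    ‖((cutM S e * cutM S e - cutM S e) i j).coeff g‖ ≤
      ∑ k, ∑' h, ‖e i k h‖ * ‖e k j (h⁻¹ * g)‖ + ‖e i j g‖ := by
  rw [coeff_defect]
  refine (norm_sub_le _ _).trans (add_le_add ((norm_sum_le _ _).trans
    (Finset.sum_le_sum fun k _ => ?_)) (norm_coeff_cut _ _ _))
  refine tsum_of_norm_bounded ((summable_shear (he.1 i k) (he.1 k j) (fun _ => norm_nonneg _)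
    (fun _ => norm_nonneg _)).1 g).hasSum fun h => ?_
  rw [norm_mul]
  exact mul_le_mul (norm_coeff_cut _ _ _) (norm_coeff_cut _ _ _) (norm_nonneg _) (norm_nonneg _)

lemma tendsto_coeff_defect (he : IsIdem e) (i j : ι) (g : G) :
    Tendsto (fun S : Finset G => ((cutM S e * cutM S e - cutM S e) i j).coeff g) atTop (𝓝 0) := by
  simp only [coeff_defect]
  rw [← sub_self (e i j g)]
  refine Tendsto.sub ?_ (tendsto_cut _ _)
  rw [he.2 i j g]
  refine tendsto_finsetSum _ fun k _ => ?_
  refine tendsto_tsum_of_dominated_convergence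
    ((summable_shear (he.1 i k) (he.1 k j) (fun _ => norm_nonneg _) (fun _ => norm_nonneg _)).1 g)
    (fun h => (tendsto_cut _ _).mul (tendsto_cut _ _)) (Eventually.of_forall fun S h => ?_)
  rw [norm_mul]
  exact mul_le_mul (norm_coeff_cut _ _ _) (norm_coeff_cut _ _ _) (norm_nonneg _) (norm_nonneg _)

lemma tendsto_defect (he : IsIdem e) :
    Tendsto (fun S => nm (cutM S e * cutM S e - cutM S e)) atTop (𝓝 0) := by
  have hentry : ∀ i j, Tendsto (fun S => l1 ((cutM S e * cutM S e - cutM S e) i j)) atTop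
      (𝓝 0) := by
    intro i j
    have hbs : Summable fun g => ∑ k, ∑' h, ‖e i k h‖ * ‖e k j (h⁻¹ * g)‖ + ‖e i j g‖ :=
      (summable_sum fun k _ => (summable_shear (he.1 i k) (he.1 k j) (fun _ => norm_nonneg _)
        (fun _ => norm_nonneg _)).2).add (he.1 i j)
    have h := tendsto_tsum_of_dominated_convergence hbs
      (fun g => (tendsto_coeff_defect he i j g).norm)
      (Eventually.of_forall fun S g => by
        rw [norm_norm]; exact norm_coeff_defect_le he S i j g)
    simpa only [← l1_eq_tsum, norm_zero, tsum_zero] using h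
  have h := tendsto_finsetSum (Finset.univ : Finset ι) fun i _ =>
    tendsto_finsetSum (Finset.univ : Finset ι) fun j _ => hentry i j
  simpa only [nm, Finset.sum_const_zero] using h

/-- A cocycle of polynomial growth on the class forces the trace coefficient to vanish. -/
theorem Cocycle.hsTrace_eq_zero [DecidableEq ι] {g0 : G} {L : G → ℝ} (A : Cocycle g0 L)
    (hL : IsLengthFn L) (he : IsIdem e) : hsTrace e g0 = 0 := by
  set M : ℝ := ∑ i, ∑ j, ∑' h, ‖e i j h‖
  set d : Finset G → ℝ := fun S => nm (cutM S e * cutM S e - cutM S e)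
  have hd : Tendsto d atTop (𝓝 0) := tendsto_defect he
  have h1 : Tendsto (fun S => (2 * M + 3) * d S * 2) atTop (𝓝 0) := by
    simpa using (hd.const_mul (2 * M + 3)).mul_const 2
  have h2 : Tendsto (fun S => ‖tauM g0 (cutM S e)‖) atTop (𝓝 ‖hsTrace e g0‖) :=
    (tendsto_tau_cutM he g0).norm
  have e1 : ∀ᶠ S in atTop, (2 * M + 3) * d S ≤ 1 / 4 := by
    have h3 := hd.const_mul (2 * M + 3)
    rw [mul_zero] at h3
    exact h3.eventually (eventually_le_nhds (by norm_num))
  have e2 : ∀ᶠ S in atTop, 14 * 3 ^ A.m * d S ≤ 1 := by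
    have h3 := hd.const_mul (14 * (3 : ℝ) ^ A.m)
    rw [mul_zero] at h3
    exact h3.eventually (eventually_le_nhds (by norm_num))
  have hle : ‖hsTrace e g0‖ ≤ 0 := le_of_tendsto_of_tendsto h2 h1 (by
    filter_upwards [e1, e2] with S a b
    exact A.tau_le_defect hL _ (nm_cutM_le he S) le_rfl a b)
  exact norm_le_zero_iff.1 hle

end Vale.Agent.P184
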