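import Vale.Agent.P184.Approx

/-!
P184: cocycles on a conjugacy class from homomorphisms on the centraliser.
-/

namespace Vale.Agent.P184

open Filter Topology

variable {G : Type*} [Group G] {g : G}

open Classical in
/-- A chosen conjugator. -/
noncomputable def conjugator (g y : G) : G :=
  if h : ∃ c, c * g * c⁻¹ = y then h.choose else 1

lemma conjugator_spec {y : G} (h : IsConj g y) :
    conjugator g y * g * (conjugator g y)⁻¹ = y := by
  have h' := isConj_iff.1 h
  rw [conjugator, dif_pos h']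
  exact h'.choose_spec

lemma conjugator_inv_mul {y : G} (h : IsConj g y) :
    (conjugator g y)⁻¹ * y * conjugator g y = g := by
  conv_lhs => arg 1; arg 2; rw [← conjugator_spec h]
  group

lemma commute_transporter (k : G) {y c c' : G} (h : c * g * c⁻¹ = y)
    (h' : c' * g * c'⁻¹ = k * y * k⁻¹) : Commute (c'⁻¹ * k * c) g := by
  subst h
  have e : c' * g = k * (c * g * c⁻¹) * k⁻¹ * c' := by rw [← h']; group
  show c'⁻¹ * k * c * g = g * (c'⁻¹ * k * c)
  calc c'⁻¹ * k * c * g = c'⁻¹ * (k * (c * g * c⁻¹) * k⁻¹ * c') * c'⁻¹ * k * c := by group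
    _ = c'⁻¹ * (c' * g) * c'⁻¹ * k * c := by rw [← e]
    _ = g * (c'⁻¹ * k * c) := by group

lemma traceVanishes_of_cocycle {L : G → ℝ} (A : Cocycle g L) (hL : IsLengthFn L) :
    TraceVanishes g := fun _ _ he => A.hsTrace_eq_zero hL he

lemma IsLengthFn.symm {L : G → ℝ} (hL : IsLengthFn L) : IsLengthFn fun x => L x + L x⁻¹ := by
  refine ⟨fun x => add_nonneg (hL.1 _) (hL.1 _), fun x y => ?_⟩
  have h1 := hL.2 x y
  have h2 := hL.2 y⁻¹ x⁻¹
  rw [← mul_inv_rev] at h2
  linarith

lemma IsCentralHom.one {f : G → ℝ} (hf : IsCentralHom f g) : f 1 = 0 := by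
  have := hf.2 1 1 (Commute.one_left g) (Commute.one_left g)
  rw [mul_one] at this
  linarith

lemma IsCentralHom.inv {f : G → ℝ} (hf : IsCentralHom f g) {z : G} (hz : Commute z g) :
    f z⁻¹ = - f z := by
  have := hf.2 z z⁻¹ hz hz.inv_left
  rw [mul_inv_cancel, hf.one] at this
  linarith

/-- A function which extends the homomorphism equivariantly and Lipschitz gives a cocycle. -/
lemma traceVanishes_of_extension {L f F : G → ℝ} (hL : IsLengthFn L) (hg : f g ≠ 0)
    (hF : ∀ u z, Commute z g → F (u * z) = F u + f z)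
    (hlip : ∀ k u, |F (k * u) - F u| ≤ L k) : TraceVanishes g := by
  refine traceVanishes_of_cocycle
    { α := fun k y => F (k * conjugator g y) - F (conjugator g y)
      c := f g, K := 1, m := 1, c_ne := hg, K_nonneg := zero_le_one
      mul := fun k l y hy => ?_, self := fun y hy => ?_
      bound := fun k y _ => ?_ } hL
  · have hy' : IsConj g (l * y * l⁻¹) := hy.trans (isConj_iff.2 ⟨l, rfl⟩)
    set c := conjugator g y
    set c' := conjugator g (l * y * l⁻¹)
    have hz : Commute ((l * c)⁻¹ * c') g := by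
      rw [show (l * c)⁻¹ * c' = (c'⁻¹ * l * c)⁻¹ by group]
      exact (commute_transporter l (conjugator_spec hy) (conjugator_spec hy')).inv_left
    have e : c' = l * c * ((l * c)⁻¹ * c') := by group
    rw [e, ← mul_assoc k (l * c), hF _ _ hz, hF _ _ hz, ← mul_assoc k l c]
    ring
  · have e : y * conjugator g y = conjugator g y * g := by
      nth_rw 1 [← conjugator_spec hy]; group
    rw [e, hF _ _ (Commute.refl g)]
    ring
  · rw [one_mul, pow_one]
    have := hlip k (conjugator g y)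
    have := hL.1 y
    linarith

/-- First criterion. -/
theorem traceVanishes_of_lipschitzHom (h : LipschitzHom g) : TraceVanishes g := by
  obtain ⟨L₀, f, hL₀, hf, hb₀⟩ := h
  set L : G → ℝ := fun x => L₀ x + L₀ x⁻¹ with hLdef
  have hL : IsLengthFn L := hL₀.symm
  have hb : ∀ z, Commute z g → |f z| ≤ L z := fun z hz =>
    (hb₀ z hz).trans (le_add_of_nonneg_right (hL₀.1 _))
  have : Nonempty {z : G // Commute z g} := ⟨⟨1, Commute.one_left g⟩⟩
  set F : G → ℝ := fun u => ⨅ z : {z : G // Commute z g}, f z.1 + L (u * z.1⁻¹) with hFdef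
  have hbdd : ∀ u, BddBelow (Set.range fun z : {z : G // Commute z g} => f z.1 + L (u * z.1⁻¹)) := by
    intro u
    refine ⟨- L u⁻¹, ?_⟩
    rintro _ ⟨⟨z, hz⟩, rfl⟩
    have h1 := hL.2 u⁻¹ (u * z⁻¹)
    rw [inv_mul_cancel_left] at h1
    have h2 := hb z⁻¹ hz.inv_left
    rw [hf.inv hz, abs_neg] at h2
    have h3 := neg_abs_le (f z)
    simp only
    linarith
  have hle : ∀ u w, Commute w g → F (u * w) ≤ F u + f w := by
    intro u w hw
    have h1 : F (u * w) - f w ≤ F u := le_ciInf fun z => by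
      have h2 : F (u * w) ≤ f (z.1 * w) + L (u * w * (z.1 * w)⁻¹) :=
        ciInf_le (hbdd _) ⟨z.1 * w, z.2.mul_left hw⟩
      have e : u * w * (z.1 * w)⁻¹ = u * z.1⁻¹ := by group
      rw [e, hf.2 _ _ z.2 hw] at h2
      linarith
    linarith
  have hF : ∀ u w, Commute w g → F (u * w) = F u + f w := by
    intro u w hw
    refine le_antisymm (hle u w hw) ?_
    have := hle (u * w) w⁻¹ hw.inv_left
    rw [mul_inv_cancel_right, hf.inv hw] at this
    linarith
  have hk : ∀ k u, F (k * u) ≤ F u + L k := by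
    intro k u
    have h1 : F (k * u) - L k ≤ F u := le_ciInf fun z => by
      have h2 : F (k * u) ≤ f z.1 + L (k * u * z.1⁻¹) := ciInf_le (hbdd _) z
      have h3 := hL.2 k (u * z.1⁻¹)
      rw [← mul_assoc] at h3
      linarith
    linarith
  refine traceVanishes_of_extension hL hf.1 hF fun k u => ?_
  have h1 := hk k u
  have h2 := hk k⁻¹ (k * u)
  rw [inv_mul_cancel_left] at h2
  have h3 : L k⁻¹ = L k := by simp only [hLdef, inv_inv]; ring
  rw [abs_le]
  constructor <;> linarith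

/-- Second criterion. -/
theorem traceVanishes_of_polynomialHom (h : PolynomialHom g) : TraceVanishes g := by
  obtain ⟨L, f, K, m, hL, hinv, hf, hK, hb, hconj⟩ := h
  classical
  let C : G → G := fun y => if h : IsConj g y then (hconj y h).choose else 1
  have hC : ∀ y, IsConj g y → C y * g * (C y)⁻¹ = y ∧ L (C y) ≤ K * (1 + L y) ^ m := by
    intro y hy
    simp only [C, dif_pos hy]
    exact (hconj y hy).choose_spec
  refine traceVanishes_of_cocycle
    { α := fun k y => f ((C (k * y * k⁻¹))⁻¹ * k * C y)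
      c := f g, K := K * (2 + 3 * K * 2 ^ m) ^ m, m := (m + 1) * m, c_ne := hf.1
      K_nonneg := by positivity
      mul := fun k l y hy => ?_, self := fun y hy => ?_
      bound := fun k y hy => ?_ } hL
  · have hy' : IsConj g (l * y * l⁻¹) := hy.trans (isConj_iff.2 ⟨l, rfl⟩)
    have hy'' : IsConj g (k * (l * y * l⁻¹) * k⁻¹) := hy'.trans (isConj_iff.2 ⟨k, rfl⟩)
    have e : k * l * y * (k * l)⁻¹ = k * (l * y * l⁻¹) * k⁻¹ := by group
    rw [e, ← hf.2 _ _ (commute_transporter k (hC _ hy').1 (hC _ hy'').1)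
      (commute_transporter l (hC _ hy).1 (hC _ hy').1)]
    congr 1
    group
  · have e : (C (y * y * y⁻¹))⁻¹ * y * C y = g := by
      rw [mul_inv_cancel_right]
      calc (C y)⁻¹ * y * C y = (C y)⁻¹ * (C y * g * (C y)⁻¹) * C y := by rw [(hC y hy).1]
        _ = g := by group
    rw [e]
  · have hy' : IsConj g (k * y * k⁻¹) := hy.trans (isConj_iff.2 ⟨k, rfl⟩)
    set T := 1 + L k + L y with hT
    have h0 := hL.1 k
    have h0' := hL.1 y
    have hT1 : 1 ≤ T := by linarith
    have hc := (hC y hy).2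
    have hc' := (hC _ hy').2
    have hy2 : L (k * y * k⁻¹) ≤ L k + L y + L k := by
      have h1 := hL.2 (k * y) k⁻¹
      rw [hinv] at h1
      have := hL.2 k y
      linarith
    have p1 : (1 + L (k * y * k⁻¹)) ^ m ≤ 2 ^ m * T ^ m := by
      rw [← mul_pow]
      exact pow_le_pow_left₀ (by linarith [hL.1 (k * y * k⁻¹)]) (by linarith) m
    have p2 : (1 + L y) ^ m ≤ T ^ m := pow_le_pow_left₀ (by linarith) (by linarith) m
    have p3 : T ^ m ≤ T ^ (m + 1) := pow_le_pow_right₀ hT1 (by omega)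
    have p4 : T ≤ T ^ (m + 1) := le_self_pow₀ hT1 (by omega)
    have hz := commute_transporter k (hC _ hy).1 (hC _ hy').1
    set z := (C (k * y * k⁻¹))⁻¹ * k * C y
    have hz1 : L z ≤ L (C (k * y * k⁻¹)) + L k + L (C y) := by
      have h1 := hL.2 ((C (k * y * k⁻¹))⁻¹ * k) (C y)
      have h2 := hL.2 (C (k * y * k⁻¹))⁻¹ k
      rw [hinv] at h2
      linarith
    have q1 : L (C (k * y * k⁻¹)) ≤ K * 2 ^ m * T ^ (m + 1) := by
      refine hc'.trans ((mul_le_mul_of_nonneg_left
        (p1.trans (mul_le_mul_of_nonneg_left p3 (by positivity))) hK).trans_eq ?_)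
      ring
    have q2 : L (C y) ≤ K * 2 ^ m * T ^ (m + 1) := by
      refine hc.trans ((mul_le_mul_of_nonneg_left ((p2.trans p3).trans
        (le_mul_of_one_le_left (by positivity) (one_le_pow₀ (a := (2 : ℝ)) (n := m) (by norm_num))))
        hK).trans_eq ?_)
      ring
    have hpos : 0 ≤ K * 2 ^ m * T ^ (m + 1) := by positivity
    have key : 1 + L z ≤ (2 + 3 * K * 2 ^ m) * T ^ (m + 1) := by
      rw [add_mul, mul_assoc (3 : ℝ), mul_assoc (3 : ℝ)]
      linarith
    refine (hb z hz).trans ?_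
    rw [mul_assoc K, pow_mul, ← mul_pow]
    exact mul_le_mul_of_nonneg_left (pow_le_pow_left₀ (by linarith [hL.1 z]) key m) hK

/-- An equivariant Lipschitz function along the powers of `g`. -/
lemma exists_translation {L : G → ℝ} (hL : IsLengthFn L) {l : ℝ} (hl : 0 < l)
    (hd : ∀ n : ℤ, l * |(n : ℝ)| ≤ L (g ^ n)) :
    ∃ F : G → ℝ, (∀ u, F (g * u) = F u + l) ∧ ∀ u k, |F (u * k) - F u| ≤ L k + L k⁻¹ := by
  set F : G → ℝ := fun u => ⨅ n : ℤ, (n : ℝ) * l + L ((g ^ n)⁻¹ * u) with hFdef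
  have hbdd : ∀ u, BddBelow (Set.range fun n : ℤ => (n : ℝ) * l + L ((g ^ n)⁻¹ * u)) := by
    intro u
    refine ⟨- L u⁻¹, ?_⟩
    rintro _ ⟨n, rfl⟩
    have h1 := hL.2 ((g ^ n)⁻¹ * u) u⁻¹
    rw [mul_inv_cancel_right] at h1
    have h2 := hd (-n)
    rw [zpow_neg, Int.cast_neg, abs_neg] at h2
    have h3 := mul_le_mul_of_nonneg_left (neg_abs_le (n : ℝ)) hl.le
    simp only
    linarith
  have hk : ∀ u k, F (u * k) ≤ F u + L k := by
    intro u k
    have h1 : F (u * k) - L k ≤ F u := le_ciInf fun n => by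
      have h2 : F (u * k) ≤ (n : ℝ) * l + L ((g ^ n)⁻¹ * (u * k)) := ciInf_le (hbdd _) n
      have h3 := hL.2 ((g ^ n)⁻¹ * u) k
      rw [mul_assoc] at h3
      linarith
    linarith
  refine ⟨F, fun u => le_antisymm ?_ ?_, fun u k => ?_⟩
  · have h1 : F (g * u) - l ≤ F u := le_ciInf fun n => by
      have h2 : F (g * u) ≤ ((n + 1 : ℤ) : ℝ) * l + L ((g ^ (n + 1))⁻¹ * (g * u)) :=
        ciInf_le (hbdd _) (n + 1)
      have e : (g ^ (n + 1))⁻¹ * (g * u) = (g ^ n)⁻¹ * u := by group
      rw [e] at h2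
      push_cast at h2
      linarith
    linarith
  · refine le_ciInf fun n => ?_
    have h2 : F u ≤ ((n - 1 : ℤ) : ℝ) * l + L ((g ^ (n - 1))⁻¹ * u) := ciInf_le (hbdd _) (n - 1)
    have e : (g ^ (n - 1))⁻¹ * u = (g ^ n)⁻¹ * (g * u) := by group
    rw [e] at h2
    push_cast at h2
    linarith
  · have h1 := hk u k
    have h2 := hk (u * k) k⁻¹
    rw [mul_inv_cancel_right] at h2
    have := hL.1 k
    have := hL.1 k⁻¹
    rw [abs_le]
    constructor <;> linarith

lemma commute_mem_centralizer {z : G} : z ∈ Subgroup.centralizer ({g} : Set G) ↔ Commute z g := by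
  rw [Subgroup.mem_centralizer_singleton_iff]
  exact Iff.rfl

/-- An invariant mean, on a class of functions, turns translation into a homomorphism. -/
lemma lipschitzHom_of_mean {L : G → ℝ} (hL : IsLengthFn L) {l : ℝ} (hl : 0 < l)
    (hd : ∀ n : ℤ, l * |(n : ℝ)| ≤ L (g ^ n))
    (m : (Subgroup.centralizer ({g} : Set G) → ℝ) → ℝ)
    (hadd : ∀ φ ψ : Subgroup.centralizer ({g} : Set G) → ℝ, (∃ B, ∀ x, |φ x| ≤ B) →
      (∃ B, ∀ x, |ψ x| ≤ B) → m (fun x => φ x + ψ x) = m φ + m ψ)
    (hbd : ∀ (φ : Subgroup.centralizer ({g} : Set G) → ℝ) (B : ℝ), (∀ x, |φ x| ≤ B) → |m φ| ≤ B)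
    (hone : ∀ c : ℝ, m (fun _ => c) = c)
    (htr : ∀ (φ : Subgroup.centralizer ({g} : Set G) → ℝ) z, (∃ B, ∀ x, |φ x| ≤ B) →
      (∀ x y, x.1⁻¹ * y.1 ∈ Subgroup.zpowers g → φ x = φ y) → m (fun x => φ (x * z)) = m φ) :
    LipschitzHom g := by
  classical
  obtain ⟨F, hFg, hFk⟩ := exists_translation hL hl hd
  have hFn : ∀ (n : ℕ) u, F (g ^ n * u) = F u + n * l := by
    intro n
    induction n with
    | zero => simp
    | succ n ih => intro u; rw [pow_succ', mul_assoc, hFg, ih]; push_cast; ring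
  have hFz : ∀ (n : ℤ) u, F (g ^ n * u) = F u + n * l := by
    intro n u
    obtain ⟨k, rfl | rfl⟩ := n.eq_nat_or_neg
    · simpa using hFn k u
    · have h1 := hFn k ((g ^ k)⁻¹ * u)
      rw [mul_inv_cancel_left] at h1
      simp only [zpow_neg, zpow_natCast, Int.cast_neg, Int.cast_natCast]
      linarith
  let ev : G → Subgroup.centralizer ({g} : Set G) → ℝ := fun z x => F (x.1 * z) - F x.1
  have hbev : ∀ z, ∃ B, ∀ x, |ev z x| ≤ B := fun z => ⟨L z + L z⁻¹, fun x => hFk x.1 z⟩
  have hper : ∀ w : Subgroup.centralizer ({g} : Set G), ∀ x y : Subgroup.centralizer ({g} : Set G),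
      x.1⁻¹ * y.1 ∈ Subgroup.zpowers g → ev w.1 x = ev w.1 y := by
    intro w x y hxy
    obtain ⟨n, hn⟩ := Subgroup.mem_zpowers_iff.1 hxy
    have hx : Commute (x.1) g := commute_mem_centralizer.1 x.2
    have ey : y.1 = g ^ n * x.1 := by
      rw [← (hx.zpow_right n).eq, hn, mul_inv_cancel_left]
    simp only [ev, ey, mul_assoc, hFz]
    ring
  refine ⟨fun x => L x + L x⁻¹, fun z => m (ev z), hL.symm, ⟨?_, fun z w hz hw => ?_⟩,
    fun z _ => hbd _ _ fun x => hFk x.1 z⟩
  · have e : ev g = fun _ => l := funext fun x => by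
      simp only [ev, (commute_mem_centralizer.1 x.2).eq, hFg, add_sub_cancel_left]
    simp only [e, hone]
    exact hl.ne'
  · let z' : Subgroup.centralizer ({g} : Set G) := ⟨z, commute_mem_centralizer.2 hz⟩
    let w' : Subgroup.centralizer ({g} : Set G) := ⟨w, commute_mem_centralizer.2 hw⟩
    have e : ev (z * w) = fun x => ev z x + ev w (x * z') := funext fun x => by
      show F (x.1 * (z * w)) - F x.1 =
        F (x.1 * z) - F x.1 + (F (x.1 * z * w) - F (x.1 * z))
      rw [← mul_assoc]; ring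
    simp only [e]
    rw [hadd (ev z) (fun x => ev w (x * z')) (hbev z)
      (let ⟨B, hB⟩ := hbev w; ⟨B, fun x => hB _⟩), htr (ev w) z' (hbev w) (hper w')]

lemma lipschitzHom_of_finite {L : G → ℝ} (hL : IsLengthFn L) {l : ℝ} (hl : 0 < l)
    (hd : ∀ n : ℤ, l * |(n : ℝ)| ≤ L (g ^ n))
    (hfin : (Subgroup.zpowers g).relIndex (Subgroup.centralizer {g}) ≠ 0) : LipschitzHom g := by
  classical
  set Z := Subgroup.centralizer ({g} : Set G)
  set N := (Subgroup.zpowers g).subgroupOf Z
  have hN : N.Normal := by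
    refine ⟨fun n hn x => ?_⟩
    have hn' : n.1 ∈ Subgroup.zpowers g := hn
    obtain ⟨k, hk⟩ := Subgroup.mem_zpowers_iff.1 hn'
    have hx : Commute x.1 g := commute_mem_centralizer.1 x.2
    show (x * n * x⁻¹).1 ∈ Subgroup.zpowers g
    have e : (x * n * x⁻¹).1 = n.1 := by
      show x.1 * n.1 * x.1⁻¹ = n.1
      rw [← hk, (hx.zpow_right k).eq, mul_inv_cancel_right]
    rw [e]; exact hn'
  have : N.FiniteIndex := ⟨hfin⟩
  have : Fintype (Z ⧸ N) := Fintype.ofFinite _
  let m : (Z → ℝ) → ℝ := fun φ => (∑ r : Z ⧸ N, φ r.out) / Fintype.card (Z ⧸ N)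
  have hpos : (0 : ℝ) < Fintype.card (Z ⧸ N) := by exact_mod_cast Fintype.card_pos
  refine lipschitzHom_of_mean hL hl hd m (fun φ ψ _ _ => ?_) (fun φ B hB => ?_) (fun c => ?_)
    (fun φ z _ hper => ?_)
  · simp only [m, Finset.sum_add_distrib, add_div]
  · simp only [m]
    rw [abs_div, abs_of_pos hpos, div_le_iff₀ hpos]
    refine (Finset.abs_sum_le_sum_abs _ _).trans ((Finset.sum_le_sum fun r _ => hB _).trans ?_)
    simp [mul_comm]
  · simp [m]
  · simp only [m]
    congr 1
    refine Fintype.sum_equiv (Equiv.mulRight (z : Z ⧸ N)) _ _ fun r => ?_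
    refine hper _ _ ?_
    have e : ((r.out * z : Z) : Z ⧸ N) = ((Equiv.mulRight (z : Z ⧸ N) r).out : Z ⧸ N) := by
      simp
    have e2 := Subgroup.mem_subgroupOf.1 (QuotientGroup.eq.1 e)
    simpa using e2

/-- Third criterion. -/
theorem traceVanishes_of_undistorted (h : Undistorted g) : TraceVanishes g := by
  obtain ⟨L, l, hL, hl, hd, ⟨m, h1, h2, h3, h4⟩ | hfin⟩ := h
  · exact traceVanishes_of_lipschitzHom
      (lipschitzHom_of_mean hL hl hd m h1 h2 h3 fun φ z hB _ => h4 φ z hB)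
  · exact traceVanishes_of_lipschitzHom (lipschitzHom_of_finite hL hl hd hfin)

/-- Fourth criterion. -/
theorem traceVanishes_of_virtualHom (h : VirtualHom g) : TraceVanishes g := by
  classical
  obtain ⟨H, hH, hg, f, hfg⟩ := h
  have : Fintype (G ⧸ H) := Fintype.ofFinite _
  have hmem : ∀ k (x : G ⧸ H), (k • x).out⁻¹ * k * x.out ∈ H := by
    intro k x
    rw [mul_assoc, ← QuotientGroup.eq, QuotientGroup.out_eq']
    show k • x = _
    conv_lhs => rw [← QuotientGroup.out_eq' x]
    rfl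
  let fc : G → G ⧸ H → ℝ := fun k x => (f ⟨_, hmem k x⟩).toAdd
  have hfc : ∀ k k' x, fc (k * k') x = fc k (k' • x) + fc k' x := by
    intro k k' x
    simp only [fc]
    rw [← toAdd_mul, ← map_mul]
    congr 2
    ext
    simp only [Subgroup.coe_mul, mul_smul]
    group
  set x0 : G ⧸ H := ((1 : G) : G ⧸ H)
  set O : Finset (G ⧸ H) := Finset.univ.filter fun x => ∃ z, Commute z g ∧ z • x0 = x
  have hO : ∀ {w x}, Commute w g → x ∈ O → w • x ∈ O := by
    intro w x hw hx
    simp only [O, Finset.mem_filter, Finset.mem_univ, true_and] at hx ⊢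
    obtain ⟨z, hz, rfl⟩ := hx
    exact ⟨w * z, hw.mul_left hz, mul_smul _ _ _⟩
  refine traceVanishes_of_lipschitzHom ⟨fun k => ∑ x, |fc k x|, fun k => ∑ x ∈ O, fc k x,
    ⟨fun k => Finset.sum_nonneg fun _ _ => abs_nonneg _, fun k k' => ?_⟩,
    ⟨?_, fun z w _ hw => ?_⟩, fun z _ => ?_⟩
  · simp only [hfc]
    refine (Finset.sum_le_sum fun x _ => abs_add_le _ _).trans ?_
    rw [Finset.sum_add_distrib]
    exact add_le_add (le_of_eq (Equiv.sum_comp (MulAction.toPerm k') fun x => |fc k x|)) le_rfl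
  · have hval : ∀ x ∈ O, fc g x = (f ⟨g, hg⟩).toAdd := by
      intro x hx
      simp only [O, Finset.mem_filter, Finset.mem_univ, true_and] at hx
      obtain ⟨z, hz, rfl⟩ := hx
      have h0 : g • x0 = x0 := by
        show ((g * 1 : G) : G ⧸ H) = ((1 : G) : G ⧸ H)
        rw [QuotientGroup.eq]
        simp [hg]
      have hfix : g • z • x0 = z • x0 := by rw [← mul_smul, ← hz.eq, mul_smul, h0]
      have hh : z⁻¹ * (z • x0).out ∈ H := by
        rw [← QuotientGroup.eq, QuotientGroup.out_eq']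
        show ((z : G) : G ⧸ H) = ((z * 1 : G) : G ⧸ H)
        rw [mul_one]
      have e : (⟨_, hmem g (z • x0)⟩ : H) = ⟨_, hh⟩⁻¹ * ⟨g, hg⟩ * ⟨_, hh⟩ := by
        ext
        simp only [hfix, Subgroup.coe_mul, Subgroup.coe_inv, mul_inv_rev, inv_inv]
        have : z * g * z⁻¹ = g := by rw [hz.eq, mul_inv_cancel_right]
        conv_lhs => rw [← this]
        group
      show (f (⟨_, hmem g (z • x0)⟩ : H)).toAdd = _
      rw [e]
      simp only [map_mul, map_inv, toAdd_mul, toAdd_inv]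
      ring
    show ∑ x ∈ O, fc g x ≠ 0
    rw [Finset.sum_congr rfl hval, Finset.sum_const, nsmul_eq_mul]
    refine mul_ne_zero ?_ fun h => hfg (Multiplicative.toAdd.injective (h.trans toAdd_one.symm))
    simp only [ne_eq, Nat.cast_eq_zero, Finset.card_eq_zero, O, Finset.filter_eq_empty_iff]
    push Not
    exact ⟨x0, Finset.mem_univ _, 1, Commute.one_left g, one_smul _ _⟩
  · simp only [hfc, Finset.sum_add_distrib]
    congr 1
    exact Finset.sum_nbij' (fun x => w • x) (fun x => w⁻¹ • x) (fun x hx => hO hw hx)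
      (fun x hx => hO hw.inv_left hx) (fun x _ => inv_smul_smul _ _) (fun x _ => smul_inv_smul _ _)
      (fun x _ => rfl)
  · exact (Finset.abs_sum_le_sum_abs _ _).trans
      (Finset.sum_le_univ_sum_of_nonneg fun _ => abs_nonneg _)

lemma hsTrace_conj {ι : Type*} [Fintype ι] (e : ι → ι → G → ℂ) {g h : G} (hgh : IsConj g h) :
    hsTrace e g = hsTrace e h := by
  have hs : {x | IsConj g x} = {x | IsConj h x} := by
    ext x; exact ⟨hgh.symm.trans, hgh.trans⟩
  refine Finset.sum_congr rfl fun i _ => ?_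
  show ∑' x : ↥{x | IsConj g x}, e i i x = ∑' x : ↥{x | IsConj h x}, e i i x
  rw [tsum_subtype, tsum_subtype, hs]

theorem traceVanishes_of_detected (h : Detected g) : TraceVanishes g := by
  rcases h with h | h | h | h
  · exact traceVanishes_of_lipschitzHom h
  · exact traceVanishes_of_polynomialHom h
  · exact traceVanishes_of_undistorted h
  · exact traceVanishes_of_virtualHom h

theorem bassProperty_of_detected {F : Finset G}
    (hF : ∀ g : G, IsOfFinOrder g → ∃ h ∈ F, IsConj h g)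
    (hd : ∀ g : G, ¬ IsOfFinOrder g → Detected g) : BassProperty G := by
  classical
  intro q e he
  refine ⟨F.filter IsOfFinOrder, fun h hh => (Finset.mem_filter.1 hh).2, fun g hg => ?_⟩
  refine traceVanishes_of_detected (hd g fun hfin => ?_) q e he
  obtain ⟨h, hh, hc⟩ := hF g hfin
  refine hg h (Finset.mem_filter.2 ⟨hh, ?_⟩) hc
  obtain ⟨c, rfl⟩ := isConj_iff.1 hc
  have : c * h * c⁻¹ = MulAut.conj c h := rfl
  rw [this] at hfin
  exact (Function.Injective.isOfFinOrder_iff (f := (MulAut.conj c).toMonoidHom)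
    (MulEquiv.injective _)).1 hfin

end Vale.Agent.P184
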