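import Mathlib

/-!
P184: idempotent matrices over the Banach algebra of absolutely summable functions on a group,
and the coefficients of their traces.
-/

namespace Vale.Agent.P184

variable {G : Type*} [Group G] {ι : Type*} [Fintype ι]

/-- An idempotent matrix with absolutely summable entries, for the convolution product. -/
def IsIdem (e : ι → ι → G → ℂ) : Prop :=
  (∀ i j, Summable fun g => ‖e i j g‖) ∧
    ∀ i j g, e i j g = ∑ k, ∑' h, e i k h * e k j (h⁻¹ * g)

/-- The trace coefficient at the conjugacy class of `g`. -/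
noncomputable def hsTrace (e : ι → ι → G → ℂ) (g : G) : ℂ :=
  ∑ i, ∑' x : {x : G // IsConj g x}, e i i x

/-- The trace coefficient at the class of `g` vanishes on all idempotent matrices. -/
def TraceVanishes (g : G) : Prop :=
  ∀ (q : ℕ) (e : Fin q → Fin q → G → ℂ), IsIdem e → hsTrace e g = 0

/-- All nonzero trace coefficients of an idempotent matrix lie at finitely many classes of
elements of finite order. -/
def BassProperty (G : Type*) [Group G] : Prop :=
  ∀ (q : ℕ) (e : Fin q → Fin q → G → ℂ), IsIdem e → ∃ F : Finset G,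
    (∀ h ∈ F, IsOfFinOrder h) ∧ ∀ g, (∀ h ∈ F, ¬ IsConj h g) → hsTrace e g = 0

/-- A nonnegative subadditive function on the group. -/
def IsLengthFn (L : G → ℝ) : Prop :=
  (∀ x, 0 ≤ L x) ∧ ∀ x y, L (x * y) ≤ L x + L y

/-- An invariant mean on the bounded real functions on a subgroup. -/
def HasMean (H : Subgroup G) : Prop :=
  ∃ m : (H → ℝ) → ℝ,
    (∀ φ ψ : H → ℝ, (∃ B, ∀ x, |φ x| ≤ B) → (∃ B, ∀ x, |ψ x| ≤ B) →
      m (fun x => φ x + ψ x) = m φ + m ψ) ∧
    (∀ (φ : H → ℝ) (B : ℝ), (∀ x, |φ x| ≤ B) → |m φ| ≤ B) ∧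
    (∀ c : ℝ, m (fun _ => c) = c) ∧
    (∀ (φ : H → ℝ) (z : H), (∃ B, ∀ x, |φ x| ≤ B) → m (fun x => φ (x * z)) = m φ)

/-- `f` is additive on the centraliser of `g` and nonzero at `g`. -/
def IsCentralHom (f : G → ℝ) (g : G) : Prop :=
  f g ≠ 0 ∧ ∀ z w, Commute z g → Commute w g → f (z * w) = f z + f w

/-- A homomorphism on the centraliser of `g`, nonzero at `g`, bounded by a length function of
the whole group. -/
def LipschitzHom (g : G) : Prop :=
  ∃ L f : G → ℝ, IsLengthFn L ∧ IsCentralHom f g ∧ ∀ z, Commute z g → |f z| ≤ L z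

/-- A homomorphism on the centraliser of `g`, nonzero at `g`, of polynomial growth, with
conjugators of polynomially bounded length. -/
def PolynomialHom (g : G) : Prop :=
  ∃ (L f : G → ℝ) (K : ℝ) (m : ℕ), IsLengthFn L ∧ (∀ x, L x⁻¹ = L x) ∧ IsCentralHom f g ∧
    0 ≤ K ∧ (∀ z, Commute z g → |f z| ≤ K * (1 + L z) ^ m) ∧
    ∀ y, IsConj g y → ∃ c, c * g * c⁻¹ = y ∧ L c ≤ K * (1 + L y) ^ m

/-- An undistorted element whose centraliser is amenable or virtually generated by it. -/
def Undistorted (g : G) : Prop :=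
  ∃ (L : G → ℝ) (l : ℝ), IsLengthFn L ∧ 0 < l ∧ (∀ n : ℤ, l * |(n : ℝ)| ≤ L (g ^ n)) ∧
    (HasMean (Subgroup.centralizer {g}) ∨
      (Subgroup.zpowers g).relIndex (Subgroup.centralizer {g}) ≠ 0)

/-- A homomorphism to the reals on a subgroup of finite index, nonzero at `g`. -/
def VirtualHom (g : G) : Prop :=
  ∃ H : Subgroup G, H.FiniteIndex ∧ ∃ (hg : g ∈ H) (f : H →* Multiplicative ℝ), f ⟨g, hg⟩ ≠ 1

/-- One of the four conditions. -/
def Detected (g : G) : Prop :=
  LipschitzHom g ∨ PolynomialHom g ∨ Undistorted g ∨ VirtualHom g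

end Vale.Agent.P184
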