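import Mathlib

/-!
P184: every element transcendental over a subfield gets an absolute value different from one in
some algebraically closed normed field.
-/

namespace Vale.Agent.P184

open Polynomial

universe u

variable {E : Type u} [Field E]

lemma aeval_single_injective :
    Function.Injective (Polynomial.aeval (R := E) (HahnSeries.single 1 1 : LaurentSeries E)) := by
  have h : ∀ p : E[X], Polynomial.aeval (HahnSeries.single 1 1 : LaurentSeries E) p =
      HahnSeries.ofPowerSeries ℤ E (p : PowerSeries E) := by
    intro p
    induction p using Polynomial.induction_on' with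
    | add p q hp hq => simp [hp, hq]
    | monomial n c =>
        simp [Polynomial.aeval_monomial, Polynomial.coe_monomial, PowerSeries.monomial_eq_C_mul_X_pow,
          map_mul, map_pow]
        rw [HahnSeries.algebraMap_apply', PowerSeries.algebraMap_apply, Algebra.algebraMap_self_apply,
          HahnSeries.ofPowerSeries_C, HahnSeries.C_mul_eq_smul]
        ext j
        rw [HahnSeries.coeff_smul, HahnSeries.coeff_single, HahnSeries.coeff_single]
        simp
  intro p q hpq
  rw [h, h] at hpq
  exact Polynomial.coe_injective E (HahnSeries.ofPowerSeries_injective hpq)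

/-- A place at which a transcendental element is not a unit. -/
theorem exists_norm_ne_one {k : Type} [Field k] [Algebra k E] {a : E} (ha : Transcendental k a) :
    ∃ (Ω : Type u) (_ : NormedField Ω) (_ : IsAlgClosed Ω) (ι : E →+* Ω), ‖ι a‖ ≠ 1 := by
  classical
  obtain ⟨t, hat, ht⟩ := exists_isTranscendenceBasis_superset (R := k) (A := E) (s := {a})
    (by
      refine algebraicIndependent_unique_type_iff.2 ?_
      simpa using ha)
  let a0 : t := ⟨a, hat rfl⟩
  let B := {b : t // b ≠ a0}
  let e : Option B ≃ t := Equiv.optionSubtypeNe a0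
  let x : Option B → E := fun o => (e o : E)
  have hx : IsTranscendenceBasis k x := ht.comp_equiv e
  let F := LaurentSeries E
  let R := MvPolynomial (Option B) k
  let φ₁ : R →+* E[X] := (Polynomial.mapRingHom
      (MvPolynomial.aeval (fun b : B => ((b : t) : E))).toRingHom).comp
    (MvPolynomial.optionEquivLeft k B).toAlgHom.toRingHom
  have hind : AlgebraicIndependent k (fun b : B => ((b : t) : E)) :=
    ht.1.comp _ Subtype.val_injective
  have hφ₁ : Function.Injective φ₁ :=
    (Polynomial.map_injective _ hind).comp (MvPolynomial.optionEquivLeft k B).injective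
  let φ : R →+* F := (Polynomial.aeval (HahnSeries.single 1 1 : F)).toRingHom.comp φ₁
  have hφ : Function.Injective φ := aeval_single_injective.comp hφ₁
  let Ω := AlgebraicClosure F
  letI : Algebra R E := (MvPolynomial.aeval x).toRingHom.toAlgebra
  letI : Algebra R Ω := ((algebraMap F Ω).comp φ).toAlgebra
  haveI : Module.IsTorsionFree R E := Module.isTorsionFree_iff_algebraMap_injective.2 hx.1
  haveI : Module.IsTorsionFree R Ω := Module.isTorsionFree_iff_algebraMap_injective.2
    ((algebraMap F Ω).injective.comp hφ)
  haveI : Algebra.IsAlgebraic R E := by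
    constructor
    intro y
    obtain ⟨p, hp, hy⟩ := hx.isAlgebraic.isAlgebraic y
    refine ⟨p.map hx.1.aevalEquiv.symm.toAlgHom.toRingHom,
      (Polynomial.map_ne_zero_iff hx.1.aevalEquiv.symm.injective).2 hp, ?_⟩
    rw [← hy, Polynomial.aeval_def, Polynomial.eval₂_map, Polynomial.aeval_def]
    congr 1
    ext z
    show MvPolynomial.aeval x (hx.1.aevalEquiv.symm z) = _
    rw [← hx.1.algebraMap_aevalEquiv, AlgEquiv.apply_symm_apply]
  let ι : E →ₐ[R] Ω := IsAlgClosed.lift
  have hι : ι a = algebraMap F Ω (HahnSeries.single 1 1) := by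
    have h1 : algebraMap R E (MvPolynomial.X none) = a := by
      show MvPolynomial.aeval x (MvPolynomial.X none) = a
      simp only [MvPolynomial.aeval_X, x, e]
      rfl
    rw [← h1, ι.commutes]
    show algebraMap F Ω (Polynomial.aeval _ (φ₁ (MvPolynomial.X none))) = _
    congr 1
    show Polynomial.aeval _ (Polynomial.map _ (MvPolynomial.optionEquivLeft k B _)) = _
    rw [MvPolynomial.optionEquivLeft_X_none, Polynomial.map_X, Polynomial.aeval_X]
  letI : Valuation.RankOne (Valued.v (R := F)) :=
    { hom' := (WithZeroMulInt.toNNReal (e := 2) (by norm_num)).comp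
        MonoidWithZeroHom.ValueGroup₀.embedding
      strictMono' := (WithZeroMulInt.toNNReal_strictMono (by norm_num)).comp
        MonoidWithZeroHom.ValueGroup₀.embedding_strictMono
      exists_val_nontrivial := ⟨HahnSeries.single 1 1, by
        rw [show (1 : ℤ) = ((1 : ℕ) : ℤ) from rfl]
        rw [LaurentSeries.valuation_single_zpow]
        refine ⟨by simp, ?_⟩
        rw [← WithZero.exp_zero, Ne, WithZero.exp_inj]
        norm_num⟩ }
  letI nf : NormedField F := Valued.toNormedField F (WithZero (Multiplicative ℤ))
  have hlt : ‖(HahnSeries.single 1 1 : F)‖ < 1 := by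
    rw [Valued.toNormedField.norm_lt_one_iff, LaurentSeries.valuation_single_zpow]
    rw [← WithZero.exp_zero, WithZero.exp_lt_exp]
    norm_num
  have h0 : (HahnSeries.single 1 1 : F) ≠ 0 := HahnSeries.single_ne_zero one_ne_zero
  letI : NontriviallyNormedField F :=
    { nf with non_trivial := ⟨(HahnSeries.single 1 1 : F)⁻¹, by
        rw [norm_inv]
        exact (one_lt_inv₀ (norm_pos_iff.2 h0)).2 hlt⟩ }
  letI : NormedField Ω := spectralNorm.normedField F Ω
  refine ⟨Ω, inferInstance, inferInstance, ι.toRingHom, ?_⟩
  show spectralNorm F Ω (ι a) ≠ 1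
  rw [hι, spectralNorm_extends]
  exact hlt.ne

end Vale.Agent.P184
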