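import Vale.Agent.P184.Locality
import Vale.Agent.P184.Places

/-!
P184: a representation with an eigenvalue off the unit circle of some normed field gives a
Lipschitz homomorphism on the centraliser; linear groups in positive characteristic.
-/

namespace Vale.Agent.P184

open Module Matrix

universe u v

variable {n : Type*} [Fintype n]

/-- The sum of the norms of the entries. -/
noncomputable def entryNorm {Ω : Type*} [NormedField Ω] (A : Matrix n n Ω) : ℝ :=
  ∑ i, ∑ j, ‖A i j‖

section
variable {Ω : Type*} [NormedField Ω]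

lemma entryNorm_nonneg (A : Matrix n n Ω) : 0 ≤ entryNorm A :=
  Finset.sum_nonneg fun _ _ => Finset.sum_nonneg fun _ _ => norm_nonneg _

lemma entryNorm_mul (A B : Matrix n n Ω) : entryNorm (A * B) ≤ entryNorm A * entryNorm B := by
  simp only [entryNorm, Finset.sum_mul]
  refine Finset.sum_le_sum fun i _ => ?_
  calc ∑ j, ‖(A * B) i j‖ ≤ ∑ j, ∑ l, ‖A i l‖ * ‖B l j‖ := Finset.sum_le_sum fun j _ => by
        rw [Matrix.mul_apply]
        exact (norm_sum_le _ _).trans (Finset.sum_le_sum fun l _ => norm_mul_le _ _)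
    _ = ∑ l, ‖A i l‖ * ∑ j, ‖B l j‖ := by
        rw [Finset.sum_comm]; simp only [Finset.mul_sum]
    _ ≤ ∑ l, ‖A i l‖ * ∑ l', ∑ j, ‖B l' j‖ := Finset.sum_le_sum fun l _ =>
        mul_le_mul_of_nonneg_left (Finset.single_le_sum (f := fun l' => ∑ j, ‖B l' j‖)
          (fun _ _ => Finset.sum_nonneg fun _ _ => norm_nonneg _) (Finset.mem_univ l))
          (norm_nonneg _)

variable [DecidableEq n]

lemma norm_eigen_le (A : Matrix n n Ω) {μ : Ω} {v : n → Ω} (hv : v ≠ 0)
    (h : A *ᵥ v = μ • v) : ‖μ‖ ≤ entryNorm A := by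
  obtain ⟨i0, hi0⟩ := Function.ne_iff.1 hv
  haveI : Nonempty n := ⟨i0⟩
  obtain ⟨i, -, hi⟩ := Finset.exists_max_image Finset.univ (fun i => ‖v i‖) Finset.univ_nonempty
  have hpos : 0 < ‖v i‖ := (norm_pos_iff.2 hi0).trans_le (hi i0 (Finset.mem_univ _))
  have h1 : μ * v i = ∑ j, A i j * v j := (congrFun h i).symm
  refine le_of_mul_le_mul_right ?_ hpos
  rw [← norm_mul, h1]
  refine (norm_sum_le _ _).trans ?_
  calc ∑ j, ‖A i j * v j‖ ≤ ∑ j, ‖A i j‖ * ‖v i‖ := Finset.sum_le_sum fun j _ => by
        rw [norm_mul]; exact mul_le_mul_of_nonneg_left (hi j (Finset.mem_univ _)) (norm_nonneg _)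
    _ ≤ entryNorm A * ‖v i‖ := by
        rw [← Finset.sum_mul]
        exact mul_le_mul_of_nonneg_right (Finset.single_le_sum (f := fun i => ∑ j, ‖A i j‖)
          (fun _ _ => Finset.sum_nonneg fun _ _ => norm_nonneg _) (Finset.mem_univ i))
          hpos.le

/-- The restriction of an endomorphism to an invariant space has determinant a product of
eigenvalues. -/
lemma det_restrict_eq_prod [IsAlgClosed Ω] (A : Matrix n n Ω) (V : Submodule Ω (n → Ω))
    (h : ∀ v ∈ V, toLin' A v ∈ V) :
    ∃ s : Multiset Ω, s.card = finrank Ω V ∧ LinearMap.det ((toLin' A).restrict h) = s.prod ∧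
      ∀ μ ∈ s, ∃ v ∈ V, v ≠ 0 ∧ A *ᵥ v = μ • v := by
  classical
  set T := (toLin' A).restrict h
  refine ⟨T.charpoly.roots, ?_, ?_, fun μ hμ => ?_⟩
  · rw [IsAlgClosed.card_roots_eq_natDegree, LinearMap.charpoly_natDegree]
  · rw [← LinearMap.det_toMatrix (Module.finBasis Ω V), det_eq_prod_roots_charpoly,
      LinearMap.charpoly_toMatrix]
  · have he := (Module.End.hasEigenvalue_iff_isRoot_charpoly T μ).2
      ((Polynomial.mem_roots T.charpoly_monic.ne_zero).1 hμ)
    obtain ⟨v, hv⟩ := he.exists_hasEigenvector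
    refine ⟨v, v.2, fun hz => hv.2 (Subtype.ext hz), ?_⟩
    have := congrArg Subtype.val hv.apply_eq_smul
    simpa [T] using this

end

variable {G : Type u} [Group G] [DecidableEq n]

/-- An eigenvalue of norm different from one gives a Lipschitz homomorphism on the centraliser. -/
theorem lipschitzHom_of_eigenvalue {Ω : Type v} [NormedField Ω] [IsAlgClosed Ω]
    (ρ : G →* Matrix n n Ω) {g : G} {a : Ω} (ha : (ρ g).charpoly.IsRoot a) (hn : ‖a‖ ≠ 1) :
    LipschitzHom g := by
  classical
  set T : G → End Ω (n → Ω) := fun x => toLin' (ρ x) with hT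
  have hmul : ∀ x y, T (x * y) = T x * T y := fun x y => by
    simp only [hT, map_mul, toLin'_mul]; rfl
  have hone : T 1 = 1 := by simp only [hT, map_one, toLin'_one]; rfl
  set V := (T g).maxGenEigenspace a with hV
  have hinv : ∀ z, Commute z g → ∀ v ∈ V, T z v ∈ V := fun z hz v hv =>
    Module.End.mapsTo_maxGenEigenspace_of_comm
      (show T g * T z = T z * T g by rw [← hmul, ← hmul, hz.eq]) a hv
  let D : G → Ω := fun z =>
    if hz : Commute z g then LinearMap.det ((T z).restrict (hinv z hz)) else 1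
  have hDmul : ∀ z w, Commute z g → Commute w g → D (z * w) = D z * D w := by
    intro z w hz hw
    simp only [D, dif_pos hz, dif_pos hw, dif_pos (hz.mul_left hw)]
    rw [← map_mul]
    congr 1
    ext v : 2
    simp [hmul, LinearMap.restrict_apply, Module.End.mul_apply]
  have hD1 : D 1 = 1 := by
    simp only [D, dif_pos (Commute.one_left g)]
    convert LinearMap.det_id (M := V)
    ext v : 2
    simp [hone, LinearMap.restrict_apply]
  set N : G → ℝ := fun x => max 1 (entryNorm (ρ x)) with hN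
  have hN1 : ∀ x, 1 ≤ N x := fun x => le_max_left _ _
  have hNmul : ∀ x y, N (x * y) ≤ N x * N y := fun x y => by
    refine max_le (one_le_mul_of_one_le_of_one_le (hN1 x) (hN1 y)) ?_
    rw [map_mul]
    exact (entryNorm_mul _ _).trans (mul_le_mul (le_max_right _ _) (le_max_right _ _)
      (entryNorm_nonneg _) (zero_le_one.trans (hN1 x)))
  have hbound : ∀ z, Commute z g → ‖D z‖ ≤ N z ^ Fintype.card n := by
    intro z hz
    obtain ⟨s, hs, hd, hμ⟩ := det_restrict_eq_prod (ρ z) V (hinv z hz)
    simp only [D, dif_pos hz]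
    rw [show LinearMap.det ((T z).restrict (hinv z hz)) = s.prod from hd]
    refine le_trans ?_ (pow_le_pow_right₀ (hN1 z) (show s.card ≤ Fintype.card n by
      rw [hs, ← Module.finrank_pi (R := Ω)]; exact Submodule.finrank_le V))
    clear hs hd
    induction s using Multiset.induction with
    | empty => simp
    | cons b s ih =>
        obtain ⟨v, -, hv0, hv⟩ := hμ b (Multiset.mem_cons_self b s)
        rw [Multiset.prod_cons, norm_mul, Multiset.card_cons, pow_succ']
        exact mul_le_mul ((norm_eigen_le _ hv0 hv).trans (le_max_right _ _))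
          (ih fun μ hm => hμ μ (Multiset.mem_cons_of_mem hm)) (norm_nonneg _)
          (zero_le_one.trans (hN1 z))
  have hDinv : ∀ z, Commute z g → D z * D z⁻¹ = 1 := fun z hz => by
    rw [← hDmul z z⁻¹ hz hz.inv_left, mul_inv_cancel, hD1]
  have hD0 : ∀ z, Commute z g → D z ≠ 0 := fun z hz h0 => by
    have := hDinv z hz
    simp [h0] at this
  set L : G → ℝ := fun x => (Fintype.card n : ℝ) * (Real.log (N x) + Real.log (N x⁻¹)) with hL
  have hlog0 : ∀ x, 0 ≤ Real.log (N x) := fun x => Real.log_nonneg (hN1 x)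
  have hlogmul : ∀ x y, Real.log (N (x * y)) ≤ Real.log (N x) + Real.log (N y) := fun x y => by
    rw [← Real.log_mul (zero_lt_one.trans_le (hN1 x)).ne' (zero_lt_one.trans_le (hN1 y)).ne']
    exact Real.log_le_log (zero_lt_one.trans_le (hN1 _)) (hNmul x y)
  refine ⟨L, fun z => Real.log ‖D z‖, ⟨fun x => mul_nonneg (Nat.cast_nonneg _)
    (add_nonneg (hlog0 _) (hlog0 _)), fun x y => ?_⟩, ⟨?_, fun z w hz hw => ?_⟩, fun z hz => ?_⟩
  · have h1 := hlogmul x y
    have h2 := hlogmul y⁻¹ x⁻¹
    rw [← _root_.mul_inv_rev] at h2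
    simp only [hL]
    rw [← mul_add]
    exact mul_le_mul_of_nonneg_left (by linarith) (Nat.cast_nonneg _)
  · obtain ⟨s, hs, hd, hμ⟩ := det_restrict_eq_prod (ρ g) V (hinv g (Commute.refl g))
    have hall : ∀ μ ∈ s, μ = a := by
      intro μ hm
      obtain ⟨v, hvV, hv0, hv⟩ := hμ μ hm
      obtain ⟨k, hk⟩ := (Module.End.mem_maxGenEigenspace _ _ _).1 hvV
      have key : ∀ j : ℕ, ((T g - a • 1) ^ j) v = (μ - a) ^ j • v := by
        intro j
        induction j with
        | zero => simp
        | succ j ih =>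
            rw [pow_succ', Module.End.mul_apply, ih, map_smul]
            simp [hT, hv, pow_succ, smul_smul, ← sub_smul]
      rw [key, smul_eq_zero, or_iff_left hv0] at hk
      exact sub_eq_zero.1 (eq_zero_of_pow_eq_zero hk)
    have hev : (T g).HasEigenvalue a := by
      rw [Module.End.hasEigenvalue_iff_isRoot_charpoly]
      simpa [hT, Matrix.charpoly_toLin'] using ha
    have hd0 : 0 < finrank Ω V := by
      obtain ⟨v, hv⟩ := hev.exists_hasEigenvector
      exact Submodule.one_le_finrank_iff.2 fun hb =>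
        hv.2 ((Submodule.mem_bot Ω).1 (hb ▸ Module.End.eigenspace_le_maxGenEigenspace hv.1))
    have hDg : D g = a ^ finrank Ω V := by
      simp only [D, dif_pos (Commute.refl g)]
      rw [show LinearMap.det ((T g).restrict (hinv g (Commute.refl g))) = s.prod from hd,
        Multiset.eq_replicate_card.2 hall, Multiset.prod_replicate, hs]
    have ha0 : a ≠ 0 := fun h0 => hD0 g (Commute.refl g) (by rw [hDg, h0, zero_pow hd0.ne'])
    show Real.log ‖D g‖ ≠ 0
    rw [hDg, norm_pow, Real.log_pow]
    exact mul_ne_zero (by exact_mod_cast hd0.ne') fun h => hn (Real.eq_one_of_pos_of_log_eq_zero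
      (norm_pos_iff.2 ha0) h)
  · show Real.log ‖D (z * w)‖ = _
    rw [hDmul z w hz hw, norm_mul, Real.log_mul (norm_ne_zero_iff.2 (hD0 z hz))
      (norm_ne_zero_iff.2 (hD0 w hw))]
  · have up : ∀ y, Commute y g → Real.log ‖D y‖ ≤ (Fintype.card n : ℝ) * Real.log (N y) :=
      fun y hy => by
        rw [← Real.log_pow]
        exact Real.log_le_log (norm_pos_iff.2 (hD0 y hy)) (hbound y hy)
    have h1 := up z hz
    have h2 := up z⁻¹ hz.inv_left
    have h3 : Real.log ‖D z‖ + Real.log ‖D z⁻¹‖ = 0 := by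
      rw [← Real.log_mul (norm_ne_zero_iff.2 (hD0 z hz)) (norm_ne_zero_iff.2 (hD0 _ hz.inv_left)),
        ← norm_mul, hDinv z hz, norm_one, Real.log_one]
    have h4 := mul_nonneg (Nat.cast_nonneg (α := ℝ) (Fintype.card n)) (hlog0 z)
    have h5 := mul_nonneg (Nat.cast_nonneg (α := ℝ) (Fintype.card n)) (hlog0 z⁻¹)
    simp only [hL, mul_add]
    exact abs_le.2 ⟨by linarith, by linarith⟩

/-- An eigenvalue transcendental over a subfield gives a Lipschitz homomorphism. -/
theorem lipschitzHom_of_transcendental {k : Type} {E : Type v} [Field k] [Field E] [Algebra k E]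
    (ρ : G →* Matrix n n E) {g : G} {a : E} (ha : (ρ g).charpoly.IsRoot a)
    (ht : Transcendental k a) : LipschitzHom g := by
  obtain ⟨Ω, _, _, ι, hι⟩ := exists_norm_ne_one ht
  refine lipschitzHom_of_eigenvalue ((ι.mapMatrix (m := n)).toMonoidHom.comp ρ)
    (a := ι a) ?_ hι
  show ((ρ g).map ι).charpoly.IsRoot (ι a)
  rw [Matrix.charpoly_map]
  exact ha.map

/-- In positive characteristic every element of infinite order of a linear group is detected. -/
theorem lipschitzHom_of_charP {K : Type v} [Field K] (p : ℕ) [Fact p.Prime] [CharP K p]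
    (ρ : G →* Matrix n n K) (hρ : Function.Injective ρ) {g : G} (hg : ¬ IsOfFinOrder g) :
    LipschitzHom g := by
  classical
  haveI : CharP (AlgebraicClosure K) p :=
    charP_of_injective_algebraMap (algebraMap K (AlgebraicClosure K)).injective p
  letI := ZMod.algebra (AlgebraicClosure K) p
  let ρ' : G →* Matrix n n (AlgebraicClosure K) :=
    ((algebraMap K (AlgebraicClosure K)).mapMatrix (m := n)).toMonoidHom.comp ρ
  have hρ' : Function.Injective ρ' :=
    (Matrix.map_injective (algebraMap K (AlgebraicClosure K)).injective).comp hρ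
  by_cases hex : ∃ a, (ρ' g).charpoly.IsRoot a ∧ Transcendental (ZMod p) a
  · obtain ⟨a, h1, h2⟩ := hex
    exact lipschitzHom_of_transcendental ρ' h1 h2
  exfalso
  push Not at hex
  rcases isEmpty_or_nonempty n with hn | hn
  · exact hg (hρ (Subsingleton.elim (ρ g) (ρ 1)) ▸ IsOfFinOrder.one)
  set A := ρ' g with hA
  have h0 : ∀ a, A.charpoly.IsRoot a → a ≠ 0 := by
    rintro a ha rfl
    have hdet : A.det = 0 := by
      rw [Matrix.det_eq_prod_roots_charpoly]
      exact Multiset.prod_eq_zero ((Polynomial.mem_roots A.charpoly_monic.ne_zero).2 ha)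
    have := congrArg Matrix.det (show A * ρ' g⁻¹ = 1 by rw [hA, ← map_mul, mul_inv_cancel, map_one])
    simp [hdet] at this
  have hfin : ∀ a, A.charpoly.IsRoot a → IsOfFinOrder a := by
    intro a ha
    have halg : IsAlgebraic (ZMod p) a := not_not.1 (hex a ha)
    haveI : FiniteDimensional (ZMod p) (IntermediateField.adjoin (ZMod p) {a}) :=
      IntermediateField.adjoin.finiteDimensional halg.isIntegral
    haveI : Finite (IntermediateField.adjoin (ZMod p) {a}) :=
      Module.finite_of_finite (ZMod p)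
    let b : (IntermediateField.adjoin (ZMod p) {a})ˣ :=
      Units.mk0 ⟨a, IntermediateField.mem_adjoin_simple_self _ a⟩ fun h =>
        h0 a ha (congrArg Subtype.val h)
    obtain ⟨m, hm, hb⟩ := isOfFinOrder_iff_pow_eq_one.1 (isOfFinOrder_of_finite b)
    refine isOfFinOrder_iff_pow_eq_one.2 ⟨m, hm, ?_⟩
    simpa [b, Subtype.ext_iff] using congrArg Units.val hb
  set M := ∏ a ∈ A.charpoly.roots.toFinset, orderOf a with hM
  have hM0 : 0 < M := Finset.prod_pos fun a ha =>
    (hfin a (Polynomial.isRoot_of_mem_roots (Multiset.mem_toFinset.1 ha))).orderOf_pos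
  have hdvd : A.charpoly ∣ (Polynomial.X ^ M - 1) ^ A.charpoly.roots.card := by
    conv_lhs => rw [(IsAlgClosed.splits A.charpoly).eq_prod_roots_of_monic A.charpoly_monic]
    rw [← Multiset.prod_replicate, ← Multiset.map_const']
    refine Multiset.prod_dvd_prod_of_dvd _ _ fun a ha => ?_
    rw [Polynomial.dvd_iff_isRoot]
    have : orderOf a ∣ M := Finset.dvd_prod_of_mem _ (Multiset.mem_toFinset.2 ha)
    simp [orderOf_dvd_iff_pow_eq_one.1 this]
  have hnil : (A ^ M - 1) ^ A.charpoly.roots.card = 0 := by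
    obtain ⟨q, hq⟩ := hdvd
    simpa [Matrix.aeval_self_charpoly] using congrArg (Polynomial.aeval A) hq
  obtain ⟨m, hm⟩ : ∃ m, A.charpoly.roots.card ≤ p ^ m :=
    ⟨_, (Nat.lt_pow_self (Fact.out : p.Prime).one_lt).le⟩
  have hpow : A ^ (M * p ^ m) = 1 := by
    have h1 : (A ^ M - 1) ^ p ^ m = 0 := pow_eq_zero_of_le hm hnil
    rw [sub_pow_char_pow_of_commute (p := p) _ (Commute.one_right _), one_pow, sub_eq_zero, ← pow_mul] at h1
    exact h1
  exact hg (isOfFinOrder_iff_pow_eq_one.2 ⟨M * p ^ m,
    Nat.mul_pos hM0 (pow_pos (Fact.out : p.Prime).pos m),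
    hρ' (by rw [map_pow, map_one]; exact hpow)⟩)

end Vale.Agent.P184
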