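import Vale.Agent.P184.Criteria

/-!
P184: every idempotent has its nonzero trace coefficients at classes meeting one finitely
generated subgroup.
-/

namespace Vale.Agent.P184

open MonoidAlgebra Matrix Filter Topology
open scoped MonoidAlgebra

variable {G : Type*} [Group G] {g0 : G} {ι : Type*} [Fintype ι]

lemma tau_mul_comm (x y : ℂ[G]) : tau g0 (x * y) = tau g0 (y * x) := by
  classical
  induction x using MonoidAlgebra.induction_linear with
  | zero => simp
  | add x x' hx hx' => rw [add_mul, mul_add, tau_add, tau_add, hx, hx']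
  | single a u =>
    induction y using MonoidAlgebra.induction_linear with
    | zero => simp
    | add y y' hy hy' => rw [add_mul, mul_add, tau_add, tau_add, hy, hy']
    | single b v =>
      rw [single_mul_single, single_mul_single, tau_single, tau_single, mul_comm u v]
      simp only [conj_rot]

lemma tau_sum {κ : Type*} (s : Finset κ) (f : κ → ℂ[G]) :
    tau g0 (∑ k ∈ s, f k) = ∑ k ∈ s, tau g0 (f k) :=
  map_sum (AddMonoidHom.mk' (tau g0) (tau_add g0)) f s

lemma tauM_mul_comm (a b : Matrix ι ι ℂ[G]) : tauM g0 (a * b) = tauM g0 (b * a) := by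
  simp only [tauM, Matrix.mul_apply, tau_sum]
  rw [Finset.sum_comm]
  simp only [tau_mul_comm]

lemma tauM_add (a b : Matrix ι ι ℂ[G]) : tauM g0 (a + b) = tauM g0 a + tauM g0 b := by
  simp [tauM, tau_add, Finset.sum_add_distrib]

lemma tauM_neg (a : Matrix ι ι ℂ[G]) : tauM g0 (-a) = - tauM g0 a := by
  simp [tauM, tau_neg, Finset.sum_neg_distrib]

variable [DecidableEq ι]

lemma nm_pow_mul (a b : Matrix ι ι ℂ[G]) : ∀ n, nm (a ^ n * b) ≤ nm a ^ n * nm b
  | 0 => by simp
  | n + 1 => by
      rw [pow_succ', mul_assoc, pow_succ', mul_assoc]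
      exact (nm_mul _ _).trans (mul_le_mul_of_nonneg_left (nm_pow_mul a b n) (nm_nonneg _))

/-- Moving an almost anticommuting element through a power. -/
lemma anticomm_pow {c d v : Matrix ι ι ℂ[G]} {K : ℝ} (hK : 1 ≤ K) (hd : nm d ≤ K)
    (hv : c * d = v - d * c) : ∀ n : ℕ, ∃ E : Matrix ι ι ℂ[G],
      c * d ^ n = E + (-1 : ℤ) ^ n • (d ^ n * c) ∧ nm E ≤ n * K ^ n * nm v
  | 0 => ⟨0, by simp, by simp [nm, l1]⟩
  | n + 1 => by
      obtain ⟨E, e1, e2⟩ := anticomm_pow hK hd hv n
      refine ⟨v * d ^ n - d * E, ?_, ?_⟩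
      · rw [pow_succ' d n, ← mul_assoc c, hv, sub_mul, mul_assoc d c, e1, mul_add, mul_smul_comm,
          ← mul_assoc d (d ^ n) c, pow_succ (-1 : ℤ), mul_neg, mul_one, neg_smul]
        abel
      · have hv0 := nm_nonneg v
        have hKn : (1 : ℝ) ≤ K ^ n := one_le_pow₀ hK
        have h1 : ∀ k, nm (v * d ^ k) ≤ K ^ k * nm v := by
          intro k
          induction k with
          | zero => simp
          | succ k ih =>
              rw [pow_succ, ← mul_assoc]
              refine (nm_mul _ _).trans ((mul_le_mul ih hd (nm_nonneg _) (by positivity)).trans_eq ?_)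
              ring
        have h2 : nm (d * E) ≤ K * (n * K ^ n * nm v) :=
          (nm_mul _ _).trans (mul_le_mul hd e2 (nm_nonneg _) (by linarith))
        refine (nm_sub _ _).trans ((add_le_add (h1 n) h2).trans ?_)
        have h3 : K ^ n * nm v ≤ K ^ (n + 1) * nm v :=
          mul_le_mul_of_nonneg_right (pow_le_pow_right₀ hK (by omega)) hv0
        rw [pow_succ] at h3 ⊢
        push_cast
        linarith

/-- One step between odd powers. -/
lemma tau_pow_step {c d u v : Matrix ι ι ℂ[G]} {K : ℝ} (hK : 1 ≤ K) (hd : nm d ≤ K)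
    (hc : nm c ≤ K) (hv : c * d = v - d * c) (hsq : d * d = 1 + u - c * c) {n : ℕ} (hn : Odd n) :
    ‖tauM g0 (d ^ (n + 2)) - tauM g0 (d ^ n)‖ ≤ K ^ n * nm u + n * K ^ n * nm v * K := by
  obtain ⟨E, e1, e2⟩ := anticomm_pow hK hd hv n
  rw [hn.neg_one_pow, neg_one_zsmul] at e1
  have key : 2 * tauM g0 (d ^ n * (c * c)) = tauM g0 (E * c) := by
    have h1 : tauM g0 (d ^ n * (c * c)) = tauM g0 (c * d ^ n * c) := by
      rw [← mul_assoc, tauM_mul_comm, ← mul_assoc]
    rw [e1, add_mul, tauM_add, neg_mul, tauM_neg, mul_assoc] at h1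
    linear_combination h1
  have e3 : tauM g0 (d ^ (n + 2)) - tauM g0 (d ^ n) =
      tauM g0 (d ^ n * u) - tauM g0 (d ^ n * (c * c)) := by
    rw [pow_add, pow_two, hsq, mul_sub, mul_add, mul_one, tauM_sub, tauM_add]
    ring
  rw [e3]
  refine (norm_sub_le _ _).trans (add_le_add ((norm_tauM_le _).trans ((nm_pow_mul _ _ _).trans
    (mul_le_mul_of_nonneg_right (pow_le_pow_left₀ (nm_nonneg _) hd n) (nm_nonneg _)))) ?_)
  have h2 : 2 * ‖tauM g0 (d ^ n * (c * c))‖ ≤ n * K ^ n * nm v * K := by
    rw [← Complex.norm_ofNat 2, ← norm_mul, key]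
    refine (norm_tauM_le _).trans ((nm_mul _ _).trans ?_)
    have hv0 := nm_nonneg v
    exact mul_le_mul e2 hc (nm_nonneg _) (by positivity)
  linarith [norm_nonneg (tauM g0 (d ^ n * (c * c)))]

lemma diff_anticomm (a b : Matrix ι ι ℂ[G]) :
    (1 - a - b) * (a - b) =
      (b * b - b - (a * a - a) + (b * b - b - (a * a - a))) - (a - b) * (1 - a - b) := by
  noncomm_ring

lemma diff_square (a b : Matrix ι ι ℂ[G]) :
    (a - b) * (a - b) = 1 + (a * a - a + (b * b - b) + (a * a - a + (b * b - b))) -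
      (1 - a - b) * (1 - a - b) := by
  noncomm_ring

/-- The odd powers of a difference of almost idempotents have almost the same trace. -/
lemma tau_odd_pow (M : ℝ) (k : ℕ) : ∃ C : ℝ, ∀ a b : Matrix ι ι ℂ[G], nm a ≤ M → nm b ≤ M →
    ‖tauM g0 ((a - b) ^ (2 * k + 1)) - tauM g0 (a - b)‖ ≤
      C * (nm (a * a - a) + nm (b * b - b)) := by
  induction k with
  | zero => exact ⟨0, fun a b _ _ => by simp⟩
  | succ k ih =>
    obtain ⟨C, hC⟩ := ih
    obtain ⟨K, hK⟩ : ∃ K, K = 1 + 2 * |M| + nm (1 : Matrix ι ι ℂ[G]) := ⟨_, rfl⟩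
    refine ⟨C + (K ^ (2 * k + 1) * 2 + (2 * k + 1 : ℕ) * K ^ (2 * k + 1) * 2 * K),
      fun a b ha hb => ?_⟩
    have hn1 := nm_nonneg (1 : Matrix ι ι ℂ[G])
    have hM := le_abs_self M
    have hM0 := abs_nonneg M
    have hK1 : 1 ≤ K := by linarith
    have hdK : nm (a - b) ≤ K := (nm_sub a b).trans (by linarith)
    have hcK : nm (1 - a - b) ≤ K :=
      (nm_sub (1 - a) b).trans (by linarith [nm_sub (1 : Matrix ι ι ℂ[G]) a])
    have hs := tau_pow_step (g0 := g0) hK1 hdK hcK (diff_anticomm a b) (diff_square a b)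
      (n := 2 * k + 1) ⟨k, rfl⟩
    have b1 := hC a b ha hb
    rw [show 2 * (k + 1) + 1 = 2 * k + 1 + 2 by omega]
    refine (norm_sub_le_norm_sub_add_norm_sub _
      (tauM g0 ((a - b) ^ (2 * k + 1))) _).trans ?_
    generalize tauM g0 ((a - b) ^ (2 * k + 1 + 2)) = t2 at hs ⊢
    generalize tauM g0 ((a - b) ^ (2 * k + 1)) = t1 at hs b1 ⊢
    have u1 := nm_add (a * a - a + (b * b - b)) (a * a - a + (b * b - b))
    have u2 := nm_add (a * a - a) (b * b - b)
    have v1 := nm_add (b * b - b - (a * a - a)) (b * b - b - (a * a - a))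
    have v2 := nm_sub (b * b - b) (a * a - a)
    generalize nm (a * a - a + (b * b - b) + (a * a - a + (b * b - b))) = U at hs u1
    generalize nm (b * b - b - (a * a - a) + (b * b - b - (a * a - a))) = V at hs v1
    generalize nm (a * a - a + (b * b - b)) = P at u1 u2
    generalize nm (b * b - b - (a * a - a)) = Q at v1 v2
    generalize nm (a * a - a) = p at b1 u2 v2 ⊢
    generalize nm (b * b - b) = q at b1 u2 v2 ⊢
    have hKn : 0 ≤ K ^ (2 * k + 1) := pow_nonneg (by linarith) _
    have h1 : K ^ (2 * k + 1) * U ≤ K ^ (2 * k + 1) * (2 * (p + q)) :=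
      mul_le_mul_of_nonneg_left (by linarith) hKn
    have h2 : ((2 * k + 1 : ℕ) : ℝ) * K ^ (2 * k + 1) * V * K ≤
        ((2 * k + 1 : ℕ) : ℝ) * K ^ (2 * k + 1) * (2 * (p + q)) * K :=
      mul_le_mul_of_nonneg_right (mul_le_mul_of_nonneg_left (by linarith) (by positivity))
        (by linarith)
    linarith

omit [DecidableEq ι] in
/-- The distance of a finite cut from the matrix. -/
lemma tendsto_tail {e : ι → ι → G → ℂ} (he : IsIdem e) :
    Tendsto (fun S : Finset G => ∑ i, ∑ j, ∑' h, ‖e i j h - (cut S (e i j)).coeff h‖) atTop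
      (𝓝 0) := by
  classical
  have hij : ∀ i j, Tendsto (fun S : Finset G => ∑' h, ‖e i j h - (cut S (e i j)).coeff h‖) atTop
      (𝓝 0) := by
    intro i j
    have h := tendsto_tsum_of_dominated_convergence (he.1 i j)
      (fun h => ((tendsto_const_nhds (x := e i j h)).sub (tendsto_cut (e i j) h)).norm)
      (Eventually.of_forall fun S h => by
        rw [norm_norm, coeff_cut]; split_ifs <;> simp)
    simpa only [sub_self, norm_zero, tsum_zero] using h
  have h := tendsto_finsetSum (Finset.univ : Finset ι) fun i _ =>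
    tendsto_finsetSum (Finset.univ : Finset ι) fun j _ => hij i j
  simpa only [Finset.sum_const_zero] using h

omit [DecidableEq ι] in
lemma nm_cut_sub {e : ι → ι → G → ℂ} (he : IsIdem e) (S T : Finset G) :
    nm (cutM S e - cutM T e) ≤ (∑ i, ∑ j, ∑' h, ‖e i j h - (cut S (e i j)).coeff h‖) +
      ∑ i, ∑ j, ∑' h, ‖e i j h - (cut T (e i j)).coeff h‖ := by
  classical
  have hs : ∀ (U : Finset G) i j,
      Summable fun h => ‖e i j h - (cut U (e i j)).coeff h‖ := fun U i j =>
    (he.1 i j).of_nonneg_of_le (fun _ => norm_nonneg _) fun h => by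
      rw [coeff_cut]; split_ifs <;> simp
  rw [← Finset.sum_add_distrib]
  refine Finset.sum_le_sum fun i _ => ?_
  rw [← Finset.sum_add_distrib]
  refine Finset.sum_le_sum fun j _ => ?_
  rw [l1_eq_tsum, ← (hs S i j).tsum_add (hs T i j)]
  have hb : ∀ h, ‖((cutM S e - cutM T e) i j).coeff h‖ ≤
      ‖e i j h - (cut S (e i j)).coeff h‖ + ‖e i j h - (cut T (e i j)).coeff h‖ := by
    intro h
    simp only [Matrix.sub_apply, coeff_sub, Finsupp.sub_apply, cutM, Matrix.of_apply]
    have := norm_sub_le_norm_sub_add_norm_sub ((cut S (e i j)).coeff h) (e i j h)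
      ((cut T (e i j)).coeff h)
    rwa [norm_sub_rev ((cut S (e i j)).coeff h) (e i j h)] at this
  exact Summable.tsum_le_tsum hb
    (((hs S i j).add (hs T i j)).of_nonneg_of_le (fun _ => norm_nonneg _) hb)
    ((hs S i j).add (hs T i j))

/-- Every idempotent matrix lives, as far as traces are concerned, on one finitely generated
subgroup. -/
theorem exists_finite_support {e : ι → ι → G → ℂ} (he : IsIdem e) :
    ∃ S : Finset G, ∀ g : G, (∀ h ∈ Subgroup.closure (S : Set G), ¬ IsConj g h) →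
      hsTrace e g = 0 := by
  classical
  set M : ℝ := ∑ i, ∑ j, ∑' h, ‖e i j h‖
  set T : Finset G → ℝ := fun S => ∑ i, ∑ j, ∑' h, ‖e i j h - (cut S (e i j)).coeff h‖ with hT
  set d : Finset G → ℝ := fun S => nm (cutM S e * cutM S e - cutM S e) with hd'
  have hM0 : 0 ≤ M := Finset.sum_nonneg fun _ _ => Finset.sum_nonneg fun _ _ =>
    tsum_nonneg fun _ => norm_nonneg _
  have hN : 0 < 2 * M + 3 := by linarith
  obtain ⟨S₀, hT0, hd0⟩ := (((tendsto_tail he).eventually
    (eventually_le_nhds (show (0 : ℝ) < 1 / 8 by norm_num))).and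
    ((tendsto_defect he).eventually (eventually_le_nhds
      (show (0 : ℝ) < 1 / (16 * (2 * M + 3)) by positivity)))).exists
  refine ⟨S₀, fun g hg => ?_⟩
  set H := Subgroup.closure (S₀ : Set G)
  set L : G → ℝ := fun x => if x ∈ H then 0 else 1 with hLdef
  have hL : IsLengthFn L := by
    refine ⟨fun x => by simp only [hLdef]; split_ifs <;> norm_num, fun x y => ?_⟩
    simp only [hLdef]
    split_ifs <;> norm_num
    exact absurd (H.mul_mem ‹x ∈ H› ‹y ∈ H›) ‹_›
  set a₀ := cutM S₀ e with ha₀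
  set δ := 1 / (16 * (2 * M + 3)) with hδ
  have hδ0 : 0 < δ := by positivity
  have hδN : (2 * M + 3) * δ = 1 / 16 := by rw [hδ]; field_simp
  have hδ1 : δ ≤ 1 / 48 := by nlinarith
  have hball : InBall L 0 a₀ := by
    intro i j h hh
    rw [Finsupp.mem_support_iff] at hh
    simp only [ha₀, cutM, Matrix.of_apply, coeff_cut] at hh
    have : h ∈ S₀ := by by_contra h'; exact hh (if_neg h')
    have hH : h ∈ H := Subgroup.subset_closure (Finset.mem_coe.2 this)
    simp only [hLdef]
    rw [if_pos hH]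
  have inv := fun n => iterate_bounds (g0 := g) hL a₀ (nm_cutM_le he S₀) hd0 (by linarith)
    (by linarith) (show 7 * δ ≤ 1 / 2 by linarith) le_rfl le_rfl hball n
  set as : ℕ → Matrix ι ι ℂ[G] := fun n => improve^[n] a₀
  have hdist : ∀ n, nm (as n - a₀) ≤ (2 * M + 3) * δ * (2 - 2 * (1 / 2) ^ n) := by
    intro n
    induction n with
    | zero => simp [as, nm, l1]
    | succ n ih =>
      obtain ⟨i1, -, i3, -⟩ := inv n
      have hstep : nm (improve (as n) - as n) ≤ (2 * M + 3) * (δ * (1 / 2) ^ n) :=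
        (nm_improve_sub _).trans (mul_le_mul (by linarith) i1 (nm_nonneg _) (by linarith))
      have h2 := nm_add (improve (as n) - as n) (as n - a₀)
      rw [sub_add_sub_cancel] at h2
      simp only [as, Function.iterate_succ_apply', pow_succ] at h2 hstep ih ⊢
      linarith
  have hdist' : ∀ n, nm (as n - a₀) ≤ 1 / 8 := by
    intro n
    have h2 : (0 : ℝ) ≤ (1 / 2) ^ n := by positivity
    have h3 : (2 * M + 3) * δ * (2 - 2 * (1 / 2) ^ n) ≤ 1 / 16 * 2 := by
      rw [hδN]; linarith
    linarith [hdist n]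
  have hzero : ∀ n, tauM g (as n) = 0 := by
    intro n
    obtain ⟨-, i2, -, -⟩ := inv n
    refine Finset.sum_eq_zero fun i _ => Finset.sum_eq_zero fun h hh => ?_
    simp only
    rw [if_neg]
    intro hc
    have h1 := i2 i i h hh
    rw [mul_zero] at h1
    refine hg h ?_ hc
    by_contra hH
    simp only [hLdef, if_neg hH] at h1
    linarith
  -- the trace of a nearby cut is small for every odd power
  have hk : ∀ k : ℕ, ‖hsTrace e g‖ ≤ (1 / 2) ^ (2 * k + 1) := by
    intro k
    obtain ⟨C, hC⟩ := tau_odd_pow (g0 := g) (ι := ι) (G := G) (M + 1) k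
    set C' := max C 0
    have hn : ∀ n, ‖hsTrace e g‖ ≤ (1 / 2) ^ (2 * k + 1) + C' * (δ * (1 / 2) ^ n) := by
      intro n
      obtain ⟨i1, -, i3, -⟩ := inv n
      have hlim : Tendsto (fun S => (1 / 2) ^ (2 * k + 1) + C' * (δ * (1 / 2) ^ n + d S)) atTop
          (𝓝 ((1 / 2) ^ (2 * k + 1) + C' * (δ * (1 / 2) ^ n + 0))) :=
        (((tendsto_defect he).const_add _).const_mul _).const_add _
      rw [add_zero] at hlim
      refine le_of_tendsto_of_tendsto (tendsto_tau_cutM he g).norm hlim ?_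
      filter_upwards [(tendsto_tail he).eventually
        (eventually_le_nhds (show (0 : ℝ) < 1 / 8 by norm_num))] with S hS
      have h1 : nm (as n - cutM S e) ≤ 1 / 2 := by
        have h2 := nm_add (as n - a₀) (a₀ - cutM S e)
        rw [sub_add_sub_cancel] at h2
        linarith [nm_cut_sub he S₀ S, hdist' n]
      have h2 := hC (as n) (cutM S e) i3 ((nm_cutM_le he S).trans (by linarith))
      rw [tauM_sub, hzero n, zero_sub, sub_neg_eq_add] at h2
      have h3 : ‖tauM g ((as n - cutM S e) ^ (2 * k + 1))‖ ≤ (1 / 2) ^ (2 * k + 1) := by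
        rw [pow_succ]
        refine (norm_tauM_le _).trans ((nm_pow_mul _ _ _).trans ?_)
        rw [pow_succ]
        exact mul_le_mul (pow_le_pow_left₀ (nm_nonneg _) h1 _) h1 (nm_nonneg _) (by positivity)
      have h4 := norm_sub_le (tauM g ((as n - cutM S e) ^ (2 * k + 1)) + tauM g (cutM S e))
        (tauM g ((as n - cutM S e) ^ (2 * k + 1)))
      rw [add_sub_cancel_left] at h4
      have h5 : C * (nm (as n * as n - as n) + d S) ≤ C' * (δ * (1 / 2) ^ n + d S) :=
        mul_le_mul (le_max_left _ _) (add_le_add i1 le_rfl)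
          (add_nonneg (nm_nonneg _) (nm_nonneg _)) (le_max_right _ _)
      linarith
    have hlim : Tendsto (fun n : ℕ => (1 / 2) ^ (2 * k + 1) + C' * (δ * (1 / 2) ^ n)) atTop
        (𝓝 ((1 / 2) ^ (2 * k + 1) + C' * (δ * 0))) :=
      (((tendsto_pow_atTop_nhds_zero_of_lt_one (by norm_num) (by norm_num)).const_mul δ).const_mul
        C').const_add _
    rw [mul_zero, mul_zero, add_zero] at hlim
    exact ge_of_tendsto' hlim hn
  have hlim : Tendsto (fun k : ℕ => ((1 / 2 : ℝ)) ^ (2 * k + 1)) atTop (𝓝 0) :=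
    (tendsto_pow_atTop_nhds_zero_of_lt_one (by norm_num) (by norm_num)).comp
      (tendsto_atTop_mono (fun k => (by omega : k ≤ 2 * k + 1)) tendsto_id)
  exact norm_le_zero_iff.1 (ge_of_tendsto' hlim hk)

/-- The property follows from detection and local finiteness of the torsion classes. -/
theorem bassProperty_of_local
    (hF : ∀ S : Finset G, ∃ F : Finset G, ∀ h ∈ Subgroup.closure (S : Set G), IsOfFinOrder h →
      ∃ x ∈ F, IsConj x h)
    (hd : ∀ g : G, ¬ IsOfFinOrder g → Detected g) : BassProperty G := by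
  classical
  intro q e he
  obtain ⟨S, hS⟩ := exists_finite_support he
  obtain ⟨F, hF'⟩ := hF S
  refine ⟨F.filter IsOfFinOrder, fun x hx => (Finset.mem_filter.1 hx).2, fun g hg => ?_⟩
  by_cases hfin : IsOfFinOrder g
  · refine hS g fun h hh hc => ?_
    obtain ⟨c, rfl⟩ := isConj_iff.1 hc
    have hh' : IsOfFinOrder (c * g * c⁻¹) :=
      (Function.Injective.isOfFinOrder_iff (f := (MulAut.conj c).toMonoidHom)
        (MulEquiv.injective _)).2 hfin
    obtain ⟨x, hx, hxc⟩ := hF' _ hh hh'
    refine hg x (Finset.mem_filter.2 ⟨hx, ?_⟩) (hxc.trans hc.symm)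
    obtain ⟨b, hb⟩ := isConj_iff.1 hxc
    rw [← hb] at hh'
    exact (Function.Injective.isOfFinOrder_iff (f := (MulAut.conj b).toMonoidHom)
      (MulEquiv.injective _)).1 hh'
  · exact traceVanishes_of_detected (hd g hfin) q e he

end Vale.Agent.P184
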