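import Vale.Agent.P184.Algebra

/-!
P184: norms on the group ring, and the iteration `a ↦ 3a² - 2a³` which makes the defect of an
almost idempotent matrix decay quickly while the support grows only exponentially.
-/

namespace Vale.Agent.P184

open MonoidAlgebra Matrix Filter Topology
open scoped MonoidAlgebra

variable {G : Type*} [Group G]

/-- The sum of the absolute values of the coefficients. -/
noncomputable def l1 (x : ℂ[G]) : ℝ := x.coeff.sum fun _ v => ‖v‖

lemma l1_nonneg (x : ℂ[G]) : 0 ≤ l1 x := Finset.sum_nonneg fun _ _ => norm_nonneg _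

lemma l1_eq_sum (x : ℂ[G]) {s : Finset G} (hs : x.coeff.support ⊆ s) :
    l1 x = ∑ h ∈ s, ‖x.coeff h‖ :=
  Finsupp.sum_of_support_subset _ hs _ (by simp)

lemma l1_add (x y : ℂ[G]) : l1 (x + y) ≤ l1 x + l1 y := by
  classical
  set s := x.coeff.support ∪ y.coeff.support
  have hx : x.coeff.support ⊆ s := Finset.subset_union_left
  have hy : y.coeff.support ⊆ s := Finset.subset_union_right
  rw [l1_eq_sum x hx, l1_eq_sum y hy, l1_eq_sum (x + y) (s := s)
    (by rw [coeff_add]; exact Finsupp.support_add), ← Finset.sum_add_distrib]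
  exact Finset.sum_le_sum fun h _ => by rw [coeff_add, Finsupp.add_apply]; exact norm_add_le _ _

lemma l1_neg (x : ℂ[G]) : l1 (-x) = l1 x := by
  rw [l1_eq_sum (-x) (s := x.coeff.support) (by simp [coeff_neg]), l1, Finsupp.sum]
  simp [coeff_neg]

lemma l1_sum {κ : Type*} (s : Finset κ) (f : κ → ℂ[G]) :
    l1 (∑ k ∈ s, f k) ≤ ∑ k ∈ s, l1 (f k) := by
  induction s using Finset.cons_induction with
  | empty => simp [l1]
  | cons a s ha ih =>
      rw [Finset.sum_cons, Finset.sum_cons]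
      exact (l1_add _ _).trans (by gcongr)

lemma l1_single (h : G) (u : ℂ) : l1 (single h u) = ‖u‖ := by
  rw [l1, coeff_single, Finsupp.sum_single_index (by simp)]

lemma l1_mul (x y : ℂ[G]) : l1 (x * y) ≤ l1 x * l1 y := by
  rw [mul_def]
  simp only [Finsupp.sum, l1, Finset.sum_mul_sum]
  refine (l1_sum _ _).trans (Finset.sum_le_sum fun h _ => (l1_sum _ _).trans
    (Finset.sum_le_sum fun k _ => ?_))
  rw [l1_single, norm_mul]

variable {ι : Type*} [Fintype ι]

/-- The norm of a matrix. -/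
noncomputable def nm (a : Matrix ι ι ℂ[G]) : ℝ := ∑ i, ∑ j, l1 (a i j)

lemma nm_nonneg (a : Matrix ι ι ℂ[G]) : 0 ≤ nm a :=
  Finset.sum_nonneg fun _ _ => Finset.sum_nonneg fun _ _ => l1_nonneg _

lemma nm_add (a b : Matrix ι ι ℂ[G]) : nm (a + b) ≤ nm a + nm b := by
  rw [nm, nm, nm, ← Finset.sum_add_distrib]
  refine Finset.sum_le_sum fun i _ => ?_
  rw [← Finset.sum_add_distrib]
  exact Finset.sum_le_sum fun j _ => l1_add _ _

lemma nm_neg (a : Matrix ι ι ℂ[G]) : nm (-a) = nm a := by simp [nm, l1_neg]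

lemma nm_sub (a b : Matrix ι ι ℂ[G]) : nm (a - b) ≤ nm a + nm b := by
  rw [sub_eq_add_neg]
  exact (nm_add _ _).trans (by rw [nm_neg])

lemma nm_mul (a b : Matrix ι ι ℂ[G]) : nm (a * b) ≤ nm a * nm b := by
  have h1 : nm (a * b) ≤ ∑ i, ∑ k, ∑ j, l1 (a i k) * l1 (b k j) := by
    rw [nm]
    refine Finset.sum_le_sum fun i _ => ?_
    rw [Finset.sum_comm (γ := ι)]
    refine Finset.sum_le_sum fun j _ => ?_
    rw [Matrix.mul_apply]
    exact (l1_sum _ _).trans (Finset.sum_le_sum fun k _ => l1_mul _ _)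
  refine h1.trans ?_
  rw [nm, nm, Finset.sum_mul]
  refine Finset.sum_le_sum fun i _ => ?_
  rw [Finset.sum_mul]
  refine Finset.sum_le_sum fun k _ => ?_
  rw [← Finset.mul_sum]
  exact mul_le_mul_of_nonneg_left
    (Finset.single_le_sum (f := fun k => ∑ j, l1 (b k j))
      (fun k _ => Finset.sum_nonneg fun _ _ => l1_nonneg _) (Finset.mem_univ k)) (l1_nonneg _)

variable {g0 : G} {L : G → ℝ}

lemma norm_tau_le (x : ℂ[G]) : ‖tau g0 x‖ ≤ l1 x := by
  classical
  refine (norm_sum_le _ _).trans (Finset.sum_le_sum fun h _ => ?_)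
  simp only
  split_ifs <;> simp

lemma norm_tauM_le (a : Matrix ι ι ℂ[G]) : ‖tauM g0 a‖ ≤ nm a := by
  refine (norm_sum_le _ _).trans (Finset.sum_le_sum fun i _ => (norm_tau_le _).trans ?_)
  exact Finset.single_le_sum (f := fun j => l1 (a i j)) (fun j _ => l1_nonneg _) (Finset.mem_univ i)

lemma tau_neg (x : ℂ[G]) : tau g0 (-x) = - tau g0 x :=
  map_neg (AddMonoidHom.mk' (tau g0) (tau_add g0)) x

lemma tauM_sub (a b : Matrix ι ι ℂ[G]) : tauM g0 (a - b) = tauM g0 a - tauM g0 b := by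
  simp [tauM, sub_eq_add_neg, tau_add, tau_neg, Finset.sum_add_distrib]

/-- The support lies in the ball of radius `R`. -/
def InBall (L : G → ℝ) (R : ℝ) (a : Matrix ι ι ℂ[G]) : Prop :=
  ∀ i j, ∀ h ∈ (a i j).coeff.support, L h ≤ R

lemma InBall.mono {R S : ℝ} {a : Matrix ι ι ℂ[G]} (h : InBall L R a) (hRS : R ≤ S) :
    InBall L S a := fun i j g hg => (h i j g hg).trans hRS

lemma InBall.add {R : ℝ} {a b : Matrix ι ι ℂ[G]} (ha : InBall L R a) (hb : InBall L R b) :
    InBall L R (a + b) := by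
  classical
  intro i j h hh
  rw [Matrix.add_apply, coeff_add] at hh
  rcases Finset.mem_union.1 (Finsupp.support_add hh) with h' | h'
  · exact ha i j h h'
  · exact hb i j h h'

lemma InBall.neg {R : ℝ} {a : Matrix ι ι ℂ[G]} (ha : InBall L R a) : InBall L R (-a) := by
  intro i j h hh
  rw [Matrix.neg_apply, coeff_neg, Finsupp.support_neg] at hh
  exact ha i j h hh

lemma InBall.sub {R : ℝ} {a b : Matrix ι ι ℂ[G]} (ha : InBall L R a) (hb : InBall L R b) :
    InBall L R (a - b) := by rw [sub_eq_add_neg]; exact ha.add hb.neg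

lemma InBall.mul (hL : IsLengthFn L) {R S : ℝ} {a b : Matrix ι ι ℂ[G]} (ha : InBall L R a)
    (hb : InBall L S b) : InBall L (R + S) (a * b) := by
  classical
  intro i j h hh
  rw [Matrix.mul_apply, coeff_sum] at hh
  obtain ⟨k, -, hk⟩ := Finset.mem_biUnion.1 (Finsupp.support_finset_sum hh)
  rw [mul_def, coeff_finsuppSum] at hk
  obtain ⟨u, hu, hu'⟩ := Finset.mem_biUnion.1 (Finsupp.support_sum hk)
  rw [coeff_finsuppSum] at hu'
  obtain ⟨v, hv, hv'⟩ := Finset.mem_biUnion.1 (Finsupp.support_sum hu')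
  rw [coeff_single] at hv'
  rw [Finset.mem_singleton.1 (Finsupp.support_single_subset hv')]
  exact (hL.2 u v).trans (add_le_add (ha i k u hu) (hb k j v hv))

lemma Cocycle.norm_pairM_le (A : Cocycle g0 L) (hL : IsLengthFn L) {R : ℝ} (hR : 0 ≤ R)
    {a b : Matrix ι ι ℂ[G]} (ha : InBall L R a) (hb : InBall L R b) :
    ‖A.pairM a b‖ ≤ A.K * (1 + 3 * R) ^ A.m * (nm a * nm b) := by
  classical
  have hK := A.K_nonneg
  have key : ∀ i j, ‖A.pair (a i j) (b j i)‖ ≤
      A.K * (1 + 3 * R) ^ A.m * (l1 (a i j) * l1 (b j i)) := by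
    intro i j
    simp only [Cocycle.pair, l1, Finsupp.sum, Finset.sum_mul_sum]
    refine (norm_sum_le _ _).trans ?_
    rw [Finset.mul_sum]
    refine Finset.sum_le_sum fun h hh => (norm_sum_le _ _).trans ?_
    rw [Finset.mul_sum]
    refine Finset.sum_le_sum fun k hk => ?_
    rw [norm_mul, norm_mul, mul_comm (A.K * _)]
    refine mul_le_mul_of_nonneg_left ?_ (by positivity)
    simp only [Cocycle.psi]
    split_ifs with hc
    · rw [Complex.norm_real, Real.norm_eq_abs]
      have h1 := ha i j h hh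
      have h2 := hb j i k hk
      have h3 := hL.2 h k
      have h4 := hL.1 k
      have h5 := hL.1 (h * k)
      exact (A.bound k _ hc).trans (mul_le_mul_of_nonneg_left
        (pow_le_pow_left₀ (by linarith) (by linarith) _) hK)
    · simp; positivity
  refine (norm_sum_le _ _).trans ?_
  rw [nm, Finset.sum_mul, Finset.mul_sum]
  refine Finset.sum_le_sum fun i _ => (norm_sum_le _ _).trans ?_
  rw [Finset.sum_mul, Finset.mul_sum]
  refine Finset.sum_le_sum fun j _ => (key i j).trans ?_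
  refine mul_le_mul_of_nonneg_left (mul_le_mul_of_nonneg_left ?_ (l1_nonneg _)) (by positivity)
  exact (Finset.single_le_sum (f := fun k => l1 (b j k)) (fun k _ => l1_nonneg _)
    (Finset.mem_univ i)).trans (Finset.single_le_sum (f := fun j => ∑ k, l1 (b j k))
      (fun j _ => Finset.sum_nonneg fun _ _ => l1_nonneg _) (Finset.mem_univ j))

/-- One step of the iteration. -/
noncomputable def improve (a : Matrix ι ι ℂ[G]) : Matrix ι ι ℂ[G] :=
  a * a + a * a + a * a - (a * a * a + a * a * a)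

lemma improve_sub [DecidableEq ι] (a : Matrix ι ι ℂ[G]) :
    improve a - a = (a * a - a) - (a * (a * a - a) + a * (a * a - a)) := by
  rw [improve]; noncomm_ring

lemma improve_defect [DecidableEq ι] (a : Matrix ι ι ℂ[G]) :
    improve a * improve a - improve a =
      (a * a - a) * (a * a - a) * (a * a - a) + (a * a - a) * (a * a - a) * (a * a - a) +
      (a * a - a) * (a * a - a) * (a * a - a) + (a * a - a) * (a * a - a) * (a * a - a) -
      ((a * a - a) * (a * a - a) + (a * a - a) * (a * a - a) + (a * a - a) * (a * a - a)) := by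
  rw [improve]; noncomm_ring

lemma exists_ball (hL : IsLengthFn L) (a : Matrix ι ι ℂ[G]) :
    ∃ R, 0 ≤ R ∧ L 1 ≤ R ∧ InBall L R a := by
  classical
  have h0 : ∀ s : Finset G, 0 ≤ ∑ h ∈ s, L h := fun s => Finset.sum_nonneg fun h _ => hL.1 h
  have h1 : 0 ≤ ∑ i, ∑ j, ∑ h ∈ (a i j).coeff.support, L h :=
    Finset.sum_nonneg fun i _ => Finset.sum_nonneg fun j _ => h0 _
  refine ⟨L 1 + ∑ i, ∑ j, ∑ h ∈ (a i j).coeff.support, L h, add_nonneg (hL.1 1) h1,
    le_add_of_nonneg_right h1, fun i j h hh => le_add_of_nonneg_of_le (hL.1 1) ?_⟩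
  refine (Finset.single_le_sum (f := L) (fun h _ => hL.1 h) hh).trans ?_
  exact (Finset.single_le_sum (f := fun j => ∑ h ∈ (a i j).coeff.support, L h)
    (fun _ _ => h0 _) (Finset.mem_univ j)).trans
    (Finset.single_le_sum (f := fun i => ∑ j, ∑ h ∈ (a i j).coeff.support, L h)
      (fun _ _ => Finset.sum_nonneg fun _ _ => h0 _) (Finset.mem_univ i))

lemma inBall_one [DecidableEq ι] : InBall L (L 1) (1 : Matrix ι ι ℂ[G]) := by
  classical
  intro i j h hh
  by_cases hij : i = j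
  · subst hij
    rw [Matrix.one_apply_eq, one_def, coeff_single] at hh
    rw [Finset.mem_singleton.1 (Finsupp.support_single_subset hh)]
  · simp [Matrix.one_apply_ne hij] at hh

lemma InBall.improve (hL : IsLengthFn L) {R : ℝ} (hR : 0 ≤ R) {a : Matrix ι ι ℂ[G]}
    (ha : InBall L R a) : InBall L (3 * R) (improve a) := by
  have h2 := (ha.mul hL ha).mono (show R + R ≤ 3 * R by linarith)
  have h3 := ((ha.mul hL ha).mul hL ha).mono (show R + R + R ≤ 3 * R by linarith)
  exact ((h2.add h2).add h2).sub (h3.add h3)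

lemma nm_improve_sub [DecidableEq ι] (a : Matrix ι ι ℂ[G]) :
    nm (improve a - a) ≤ (1 + 2 * nm a) * nm (a * a - a) := by
  rw [improve_sub]
  refine (nm_sub _ _).trans ((add_le_add le_rfl (nm_add _ _)).trans ?_)
  have := nm_mul a (a * a - a)
  linarith

lemma nm_improve_defect [DecidableEq ι] (a : Matrix ι ι ℂ[G]) (h : nm (a * a - a) ≤ 1) :
    nm (improve a * improve a - improve a) ≤ 7 * (nm (a * a - a) * nm (a * a - a)) := by
  rw [improve_defect]
  generalize a * a - a = e at h ⊢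
  have hsq : nm (e * e) ≤ nm e * nm e := nm_mul _ _
  have hcu : nm (e * e * e) ≤ nm e * nm e :=
    (nm_mul _ _).trans ((mul_le_of_le_one_right (nm_nonneg _) h).trans hsq)
  refine (nm_sub _ _).trans ?_
  have e1 := nm_add (e * e * e + e * e * e + e * e * e) (e * e * e)
  have e2 := nm_add (e * e * e + e * e * e) (e * e * e)
  have e3 := nm_add (e * e * e) (e * e * e)
  have e4 := nm_add (e * e + e * e) (e * e)
  have e5 := nm_add (e * e) (e * e)
  linarith

lemma iterate_bounds [DecidableEq ι] (hL : IsLengthFn L) (a : Matrix ι ι ℂ[G]) {M δ r R : ℝ}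
    (hM : nm a ≤ M) (hd : nm (a * a - a) ≤ δ) (hδ : δ ≤ 1) (hδ1 : (2 * M + 3) * δ ≤ 1 / 4)
    (h7 : 7 * δ ≤ r) (hr : r ≤ 1 / 2) (hR : 0 ≤ R) (hRa : InBall L R a) (n : ℕ) :
    nm (improve^[n] a * improve^[n] a - improve^[n] a) ≤ δ * r ^ n ∧
      InBall L (3 ^ n * R) (improve^[n] a) ∧ nm (improve^[n] a) ≤ M + 1 ∧
      ‖tauM g0 (improve^[n] a) - tauM g0 a‖ ≤ (2 * M + 3) * δ * 2 := by
  have hM0 : 0 ≤ M := (nm_nonneg a).trans hM
  have hδ0 : 0 ≤ δ := (nm_nonneg _).trans hd
  have hr0 : 0 ≤ r := by linarith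
  suffices H : nm (improve^[n] a * improve^[n] a - improve^[n] a) ≤ δ * r ^ n ∧
      InBall L (3 ^ n * R) (improve^[n] a) ∧
      nm (improve^[n] a) ≤ M + (2 * M + 3) * δ * (2 - 2 * (1 / 2) ^ n) ∧
      ‖tauM g0 (improve^[n] a) - tauM g0 a‖ ≤ (2 * M + 3) * δ * (2 - 2 * (1 / 2) ^ n) by
    obtain ⟨i1, i2, i3, i4⟩ := H
    have h2 : (0 : ℝ) ≤ (1 / 2) ^ n := by positivity
    have h4 : (2 * M + 3) * δ * (2 - 2 * (1 / 2) ^ n) ≤ (2 * M + 3) * δ * 2 :=
      mul_le_mul_of_nonneg_left (by linarith) (by positivity)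
    exact ⟨i1, i2, by linarith, i4.trans h4⟩
  induction n with
  | zero => exact ⟨by simpa using hd, by simpa using hRa, by simpa using hM, by simp⟩
  | succ n ih =>
    rw [Function.iterate_succ_apply']
    obtain ⟨i1, i2, i3, i4⟩ := ih
    generalize improve^[n] a = b at *
    have hrn1 : r ^ n ≤ 1 := pow_le_one₀ hr0 (by linarith)
    have hrn : r ^ n ≤ (1 / 2) ^ n := pow_le_pow_left₀ hr0 hr n
    have hε0 := nm_nonneg (b * b - b)
    have hε1 : nm (b * b - b) ≤ δ := i1.trans (mul_le_of_le_one_right hδ0 hrn1)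
    have h2 : (0 : ℝ) ≤ (1 / 2) ^ n := by positivity
    have h4 : (2 * M + 3) * δ * (2 - 2 * (1 / 2) ^ n) ≤ (2 * M + 3) * δ * 2 :=
      mul_le_mul_of_nonneg_left (by linarith) (by positivity)
    have hdiff : nm (improve b - b) ≤ (2 * M + 3) * (δ * (1 / 2) ^ n) :=
      (nm_improve_sub b).trans (mul_le_mul (by linarith) (i1.trans
        (mul_le_mul_of_nonneg_left hrn hδ0)) hε0 (by linarith))
    refine ⟨?_, ?_, ?_, ?_⟩
    · refine (nm_improve_defect b (hε1.trans hδ)).trans ?_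
      calc 7 * (nm (b * b - b) * nm (b * b - b)) = 7 * nm (b * b - b) * nm (b * b - b) := by ring
        _ ≤ r * (δ * r ^ n) := mul_le_mul (by linarith) i1 hε0 hr0
        _ = δ * r ^ (n + 1) := by ring
    · exact (i2.improve hL (by positivity)).mono (le_of_eq (by ring))
    · have := nm_add b (improve b - b)
      rw [add_sub_cancel] at this
      rw [pow_succ]
      linarith
    · have := norm_tauM_le (g0 := g0) (improve b - b)
      rw [tauM_sub] at this
      have htri :=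
        norm_sub_le_norm_sub_add_norm_sub (tauM g0 (improve b)) (tauM g0 b) (tauM g0 a)
      rw [pow_succ]
      linarith

lemma Cocycle.tau_small [DecidableEq ι] (A : Cocycle g0 L) (hL : IsLengthFn L)
    (b : Matrix ι ι ℂ[G]) {S : ℝ} (hS : 0 ≤ S) (h1 : L 1 ≤ S) (hb : InBall L S b)
    (hε : InBall L S (b * b - b)) :
    |A.c| * ‖tauM g0 b‖ ≤ A.K * (1 + 3 * S) ^ A.m * nm (b * b - b) *
      (nm (1 : Matrix ι ι ℂ[G]) + 6 * nm b) := by
  have p1 := A.norm_pairM_le hL hS (inBall_one.mono h1) hε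
  have p2 := A.norm_pairM_le hL hS hb hε
  have p3 := A.norm_pairM_le hL hS hε hb
  have heq := congrArg (‖·‖) (A.tau_almost b)
  simp only [norm_mul, Complex.norm_real, Real.norm_eq_abs] at heq
  rw [heq]
  refine (norm_add_le _ _).trans ?_
  rw [norm_neg, norm_mul, Complex.norm_ofNat]
  have p4 := norm_sub_le (A.pairM b (b * b - b)) (2 * A.pairM (b * b - b) b)
  rw [norm_mul, Complex.norm_ofNat] at p4
  linarith

/-- The trace at the class of a matrix with small defect is bounded by that defect. -/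
lemma Cocycle.tau_le_defect [DecidableEq ι] (A : Cocycle g0 L) (hL : IsLengthFn L)
    (a : Matrix ι ι ℂ[G]) {M δ : ℝ} (hM : nm a ≤ M) (hd : nm (a * a - a) ≤ δ)
    (hδ1 : (2 * M + 3) * δ ≤ 1 / 4) (hδ2 : 14 * 3 ^ A.m * δ ≤ 1) :
    ‖tauM g0 a‖ ≤ (2 * M + 3) * δ * 2 := by
  have hδ0 : 0 ≤ δ := (nm_nonneg _).trans hd
  have hM0 : 0 ≤ M := (nm_nonneg a).trans hM
  have hK := A.K_nonneg
  have h3 : (1 : ℝ) ≤ 3 ^ A.m := one_le_pow₀ (by norm_num)
  set r : ℝ := 1 / (2 * 3 ^ A.m) with hr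
  have hr0 : 0 ≤ r := by positivity
  have hr1 : r ≤ 1 / 2 := by rw [hr, div_le_iff₀ (by positivity)]; linarith
  have h7 : 7 * δ ≤ r := by rw [hr, le_div_iff₀ (by positivity)]; linarith
  have hq : 3 ^ A.m * r = 1 / 2 := by rw [hr]; field_simp
  obtain ⟨R, hR0, hR1, hRa⟩ := exists_ball hL a
  have inv := iterate_bounds (g0 := g0) hL a hM hd (by linarith) hδ1 h7 hr1 hR0 hRa
  set B : ℝ := A.K * (1 + 6 * R) ^ A.m * δ * (nm (1 : Matrix ι ι ℂ[G]) + 6 * (M + 1)) with hB
  have hsmall : ∀ n, |A.c| * ‖tauM g0 (improve^[n] a)‖ ≤ B * (1 / 2) ^ n := by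
    intro n
    obtain ⟨i1, i2, i3, -⟩ := inv n
    generalize improve^[n] a = b at *
    have h3n : (1 : ℝ) ≤ 3 ^ n := one_le_pow₀ (by norm_num)
    have hRn : R ≤ 3 ^ n * R := le_mul_of_one_le_left hR0 h3n
    have t := A.tau_small hL b (S := 3 ^ n * R + 3 ^ n * R) (by linarith) (by linarith)
      (i2.mono (by linarith)) ((i2.mul hL i2).sub (i2.mono (by linarith)))
    have hpow : (1 + 3 * (3 ^ n * R + 3 ^ n * R)) ^ A.m ≤ (1 + 6 * R) ^ A.m * (3 ^ A.m) ^ n := by
      rw [pow_right_comm, ← mul_pow]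
      exact pow_le_pow_left₀ (by positivity) (by linarith) _
    have hcore : A.K * (1 + 3 * (3 ^ n * R + 3 ^ n * R)) ^ A.m * nm (b * b - b) ≤
        A.K * (1 + 6 * R) ^ A.m * δ * (1 / 2) ^ n := by
      calc A.K * (1 + 3 * (3 ^ n * R + 3 ^ n * R)) ^ A.m * nm (b * b - b)
          ≤ A.K * ((1 + 6 * R) ^ A.m * (3 ^ A.m) ^ n) * (δ * r ^ n) :=
            mul_le_mul (mul_le_mul_of_nonneg_left hpow hK) i1 (nm_nonneg _) (by positivity)
        _ = A.K * (1 + 6 * R) ^ A.m * δ * (3 ^ A.m * r) ^ n := by rw [mul_pow]; ring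
        _ = _ := by rw [hq]
    refine t.trans ?_
    rw [hB, mul_right_comm _ (nm (1 : Matrix ι ι ℂ[G]) + 6 * (M + 1))]
    have n1 := nm_nonneg (1 : Matrix ι ι ℂ[G])
    have n2 := nm_nonneg b
    exact mul_le_mul hcore (by linarith) (by positivity) (by positivity)
  have hlim : Tendsto (fun n : ℕ => B * (1 / 2) ^ n + |A.c| * ((2 * M + 3) * δ * 2)) atTop
      (𝓝 (B * 0 + |A.c| * ((2 * M + 3) * δ * 2))) :=
    ((tendsto_pow_atTop_nhds_zero_of_lt_one (by norm_num) (by norm_num)).const_mul B).add_const _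
  rw [mul_zero, zero_add] at hlim
  have hc : 0 < |A.c| := abs_pos.2 A.c_ne
  refine le_of_mul_le_mul_left (ge_of_tendsto' hlim fun n => ?_) hc
  obtain ⟨-, -, -, i4⟩ := inv n
  have htri : ‖tauM g0 a‖ ≤ ‖tauM g0 (improve^[n] a)‖ +
      ‖tauM g0 (improve^[n] a) - tauM g0 a‖ := by
    have := norm_sub_le (tauM g0 (improve^[n] a)) (tauM g0 (improve^[n] a) - tauM g0 a)
    rwa [sub_sub_cancel] at this
  have h6 := hsmall n
  have h7' := mul_le_mul_of_nonneg_left i4 hc.le
  have h8 := mul_le_mul_of_nonneg_left htri hc.le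
  rw [mul_add] at h8
  linarith

end Vale.Agent.P184
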